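import Vale.Agent.P280Z.Ma.All
import Vale.Agent.P280Z.Ma.Nx
import Vale.Agent.P280Z.Sq.Defs

/-!
# P280Z, block Mb: the numerical structure of an abstract family
-/

open scoped Manifold ContDiff Topology Matrix
open Set Filter
open Vale.Agent.P272.K Vale.Agent.P285.H281.FD Vale.Agent.P281Z
open Vale.Agent.P277Z.Slc (lin at_chartAt)
open Vale.Agent.P277.HD (pull)
open Vale.Agent.P280Z.Ma
open Vale.Agent.P280Z.Sq (Pf NSA)

noncomputable section

namespace Vale.Agent.P280Z.Mb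

variable {T : CT} {n : ℕ} {X : Mf n} (F : Pf X) {η : T.H X}

theorem conn_K : ConnectedSpace F.K.X :=
  have := F.cU
  Function.Surjective.connectedSpace (f := F.p) (fun y => (F.cp y).nonempty) F.sp.hol.cont

theorem tau_fib (hT : T.OK) (h : F.Pol T η) {m : ℕ} (Z : Mf m) (i : Z.X → F.U.X) (x : X.X)
    (hi : Emb m (F.k + 1) i (F.e ⁻¹' {x})) : T.Kc Z (T.pull hi.hol (-T.c1 F.U F.Tb)) := by
  obtain ⟨lam, c, kL, rel, kU⟩ := h.ex
  have p1 : 0 < |c| + 2 := by positivity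
  have b1 := kc_pull hT hi.hol (fun z v hv => hi.imm z _ _ (at_chartAt z) (at_chartAt _)
    (hv.trans (map_zero _).symm)) kU
  have b2 := nn_pull hT hi.hol (hT.po.smul _ p1 (nn_pull hT F.sp.hol kL))
  have b3 : T.pull hi.hol (T.pull F.se.hol η) = 0 := by
    rw [← hT.rg.pull_comp hi.hol F.se.hol (holM_const x) fun z =>
      (show F.e (i z) = x from hi.rng.subset (mem_range_self z)).symm]
    exact pull_const hT x (hT.po.deg h.kc)
  have b4 := congrArg (T.pull hi.hol) rel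
  simp only [map_sub, map_smul, b3, smul_zero, zero_sub] at b4
  have p0 : (0 : ℝ) < c + (|c| + 2) - 1 := by linarith [neg_abs_le c]
  have b5 := hT.po.smul _ (inv_pos.2 p0) (kc_add hT b1 b2)
  have b6 : T.pull hi.hol (T.c1 F.U F.Tb + c • T.pull F.sp.hol lam) +
      T.pull hi.hol ((|c| + 2) • T.pull F.sp.hol lam) =
      (c + (|c| + 2) - 1) • T.pull hi.hol (-T.c1 F.U F.Tb) := by
    simp only [map_add, map_smul, map_neg, b4]
    module
  rwa [b6, smul_smul, inv_mul_cancel₀ p0.ne', one_smul] at b5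

theorem alg_eq (hT : T.OK) {a : T.H F.K} {c : ℝ} (ha : T.Dg F.K 0 a)
    (h : T.pull F.sp.hol a = algebraMap ℝ _ c) : a = algebraMap ℝ _ c := by
  obtain ⟨c', rfl⟩ := hT.rg.h0 _ (conn_K F).toPreconnectedSpace _ ha
  obtain ⟨w, hw⟩ := (hT.po.kah _).1 F.kU
  have b := congrArg (fun x => T.int F.U (x * w ^ (F.k + 1))) h
  simp only [AlgHom.commutes, ← Algebra.smul_def, map_smul, smul_eq_mul] at b
  rw [mul_right_cancel₀ (kc_vol hT hw F.cU.toNonempty.some).ne' b]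

theorem dg_push (hT : T.OK) {a : T.H F.U} {j : ℕ} (ha : T.Dg F.U (j + 1) a) :
    T.Dg F.K j (T.push F.p a) := by
  unfold CT.Dg; rw [hT.pu.deg F.sp 1 rfl, ha]

theorem nsa : NSA := by
  intro T hT n V F η h hc m hm E hE
  have sp := F.sp
  have se := F.se
  obtain ⟨lam, c, kL, rl, kU⟩ := h.ex
  have kη := h.kc
  obtain ⟨a1, a2, a3, -⟩ := lha T hT F.Q F.kU
  have a4 := h.inv m E hE
  obtain ⟨r1, r2, r3⟩ := rel.ps T hT F.se.hol hE
  have ses : ∀ j, T.ps F.U E j + T.pull F.se.hol (T.ps V (VB.tan n V.X) j) =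
      T.c1 F.U F.Tb ^ j + T.pull F.sp.hol (T.ps F.K (VB.tan F.k F.K.X) j) := fun j =>
    (r3 j).symm.trans (a3 j)
  have e0 : T.ps F.U E 0 = m := by rw [hT.ch.zero _ _ r1, r2]
  have a2' : T.dem F.sp.hol (T.c1 F.U F.Tb) = 2 := a2
  refine ⟨⟨ga_ok hT V ((hT.po.kah _).2 ⟨_, kη⟩), hm ▸ ga_ok hT F.U F.kU,
    hT.rg.h0 V hc.toPreconnectedSpace, hT.rg.pull_pr F.se.hol, fun j b => hT.pu.deg se m hm j b,
    hT.pu.proj se, hT.pu.int se, fun j b => ?_, fun b b' => ?_, fun b b' => ?_, a1,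
    hT.po.deg kη, hT.c1.deg _ _, ?_, a2, kc_vol hT kη hc.toNonempty.some, hT.ho.hl kη,
    hT.ho.one kη, hT.ch.deg _ _, hT.ch.deg _ _, fun j => dg_pull hT F.sp.hol (hT.ch.deg _ _ j),
    hT.ch.zero V _ (vbl.tan V), e0, ses, fun j => dem_pull hT sp _, a4,
    fun s hs j hj => hT.ch.rank _ E r1 s hs j (r2 ▸ hj), ?_⟩, ?_, tau_fib F hT h⟩
  · change T.pr F.U j (T.pull F.sp.hol (T.push F.p b)) = T.pull F.sp.hol (T.push F.p _)
    rw [← hT.rg.pull_pr, hT.pu.deg sp 1 rfl]; rfl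
  · change T.pull F.sp.hol (T.push F.p (b * T.pull sp.hol (T.push F.p b'))) =
      T.pull F.sp.hol (T.push F.p b) * T.pull F.sp.hol (T.push F.p b')
    rw [hT.pu.proj sp, map_mul]
  · change T.int F.U (T.pull sp.hol (T.push F.p b) * b') =
      T.int F.U (b * T.pull sp.hol (T.push F.p b'))
    rw [mul_comm, ← hT.pu.int sp, ← hT.pu.int sp, hT.pu.proj sp, hT.pu.proj sp, mul_comm]
  · change T.dem F.sp.hol (T.pull F.se.hol η) = 1
    have b := congrArg (T.dem F.sp.hol) rl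
    simp only [map_sub, map_smul, a2', dem_pull hT sp] at b
    rw [← one_add_one_eq_two (R := T.H F.U)] at b
    linear_combination (norm := module) (-2⁻¹ : ℝ) • b
  · have g1 : T.Dg F.U 1 (-T.c1 F.U F.Tb) := by
      unfold CT.Dg; rw [map_neg, hT.c1.deg]
    have g2 : T.Dg V 0 (T.push F.e ((-T.c1 F.U F.Tb) ^ m)) := by
      unfold CT.Dg; rw [hT.pu.deg se m hm, zero_add, dg_pow hT g1]
    obtain ⟨D', hD⟩ := hT.rg.h0 V hc.toPreconnectedSpace _ g2
    obtain ⟨u⟩ := F.cU.toNonempty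
    obtain ⟨Z, i, hi, hv⟩ := fibre hT fp se hm (F.e u)
    obtain ⟨z, -⟩ : u ∈ range i := hi.rng.symm ▸ rfl
    refine ⟨D', ?_, hD⟩
    rw [← hv _ _ hD, map_pow]
    exact kc_vol hT (tau_fib F hT h Z i _ hi) z
  · refine alg_eq F hT (dg_push F hT (dg_pull hT F.se.hol (hT.ch.deg _ _ 1))) ?_
    change T.dem F.sp.hol (T.pull F.se.hol _) = _
    have b1 := congrArg (T.dem F.sp.hol) (ses 1)
    have b2 : T.dem F.sp.hol _ = 0 := a4 1
    simp only [Finset.sum_range_succ, Finset.range_zero, Finset.sum_empty, e0, zero_add,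
      Nat.choose_zero_right, Nat.choose_self, Nat.cast_one, one_smul, tsub_zero, pow_one, tsub_self,
      pow_zero, mul_one, map_add, ← nsmul_eq_mul, map_nsmul, map_smul, a2'] at b2
    simp only [map_add, pow_one, a2', dem_pull hT sp, add_zero] at b1
    rw [Algebra.algebraMap_eq_smul_one, ← Nat.cast_smul_eq_nsmul ℝ] at *
    rw [← one_add_one_eq_two (R := T.H F.U)] at b1 b2
    linear_combination (norm := module) b1 - b2

/-- Hodge theory on the space of curves, types and positivity -/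
theorem exa (hT : T.OK) (hP : F.Pol T η) {m : ℕ} (E : VB F.U.X)
    (h : (T.ns F.sp.hol F.se.hol η F.Tb E).OK0 n m) :
    (T.ns F.sp.hol F.se.hol η F.Tb E).Ex n F.k := by
  have sp := F.sp
  have se := F.se
  obtain ⟨w, c, kL, rl, -⟩ := hP.ex
  have cK := conn_K F
  have kη := hP.kc
  set S := T.ns F.sp.hol F.se.hol η F.Tb E with hS
  have ea : S.aa = T.pull F.sp.hol w := by
    change T.pull F.se.hol η + (T.pull F.se.hol η - T.c1 F.U F.Tb) = _
    rw [rl]; module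
  have a : T.push F.p S.hh = 1 := by
    rw [← map_one (algebraMap ℝ (T.H F.K))]
    exact alg_eq F hT (dg_push F hT (dg_pull hT F.se.hol h.dη)) (h.Tη.trans (map_one _).symm)
  have pp : ∀ y, T.push F.p (S.hh * T.pull F.sp.hol y) = y := fun y => by
    rw [hT.pu.proj sp, a, one_mul]
  have inj : ∀ y, T.pull F.sp.hol y = 0 → y = 0 := fun y hy => by
    rw [← pp y, hy, mul_zero, map_zero]
  have it : ∀ y, S.GU.int (S.hh * T.pull F.sp.hol y) = T.int F.K y := fun y => by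
    rw [← pp y, hT.pu.int sp, pp y]; rfl
  have t0 : ∀ y, S.T (T.pull F.sp.hol y) = 0 := dem_pull hT sp
  have ker : ∀ x, S.T x = 0 → x = T.pull F.sp.hol ((2 : ℝ)⁻¹ • T.push F.p (S.τ * x)) :=
    fun x hx => by
    have b := h.lh x
    rw [hx, mul_zero, zero_add] at b
    rw [map_smul]
    change x = (2 : ℝ)⁻¹ • S.T (S.τ * x)
    rw [b, smul_smul, inv_mul_cancel₀ two_ne_zero, one_smul]
  have dgp : ∀ i y, S.GU.Dg i (T.pull F.sp.hol y) → T.Dg F.K i y := fun i y hy => by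
    refine sub_eq_zero.1 (inj _ ?_)
    rw [map_sub, hT.rg.pull_pr]
    exact sub_eq_zero.2 hy
  have pw : ∀ j y, S.aa ^ j * T.pull F.sp.hol y = T.pull F.sp.hol (w ^ j * y) := fun j y => by
    rw [ea, map_mul, map_pow]
  have sq : ∀ j y, T.pull F.sp.hol y * T.pull F.sp.hol y * S.aa ^ j =
      T.pull F.sp.hol (y * y * w ^ j) := fun j y => by rw [ea, map_mul, map_mul, map_pow]
  have tτ : S.τ ∈ T.Ty F.U := hT.tp.c1 _ _ F.Q.lb
  have wn : ∀ {l : ℕ} {Z : Mf l} {x : T.H Z}, T.Nn Z x → x ∈ T.Wp Z := fun hx => by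
    have b := hT.po.wp_mul hx (hT.po.wp_one _)
    rwa [mul_one] at b
  have wη := wn (hT.po.mono kη fun _ => le_top)
  refine ⟨?_, fun i j hij => ⟨fun x hx dx z => ?_, fun y hy dy => ?_⟩,
    fun i j hij x hx dx z u x0 => ?_,
    ⟨T.Ty X, T.Ty F.U, hT.tp.wp wη, tτ,
      fun _ b => hT.tp.pull F.se.hol b, fun _ b => hT.tp.push se b,
      fun _ b => hT.tp.pull F.sp.hol (hT.tp.push sp b), fun j _ b => hT.tp.pr j b,
      fun j _ b => hT.tp.pr j b, hT.ho.hr kη, fun i j hij x tx hx dx z x0 => ?_⟩,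
    ⟨T.Wp X, T.Wp F.U, hT.po.wp_one _, hT.po.wp_one _, wη,
      wn (nn_pull hT F.se.hol kη), ea ▸ wn (nn_pull hT F.sp.hol kL),
      fun _ b c _ f => hT.po.wp_mul (hT.po.wp_nn b c) f,
      fun _ b c _ f => hT.po.wp_mul (hT.po.wp_nn b c) f, fun _ b => hT.po.wp_pull F.se.hol b,
      fun _ b => hT.po.wp_push se b, fun _ b => hT.po.wp_pull F.sp.hol (hT.po.wp_push sp b),
      fun _ b => hT.po.wp_int b, fun _ b => hT.po.wp_int b⟩⟩
  · rw [ea, ← map_pow, it]
    exact kc_vol hT kL cK.toNonempty.some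
  · rw [ker x hx] at dx z ⊢
    rw [pw] at z
    rw [(hT.ho.hl kL i j hij).1 _ (dgp _ _ dx) (inj _ z), map_zero]
  · rw [ker y hy] at dy ⊢
    obtain ⟨x, dx, hx⟩ := (hT.ho.hl kL i j hij).2 _ (dgp _ _ dy)
    exact ⟨_, t0 x, dg_pull hT F.sp.hol dx, by rw [pw, hx]⟩
  · rw [ker x hx] at dx z u x0 ⊢
    rw [pw] at z
    rw [sq, it]
    refine hT.ho.one kL i j hij _ (dgp _ _ dx) (inj _ z) (fun b db zb => ?_)
      fun f => x0 (by rw [f, map_zero])
    obtain ⟨c, hc'⟩ := u _ (t0 b) (dg_pull hT F.sp.hol db) (by rw [pw, zb, map_zero])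
    exact ⟨c, sub_eq_zero.1 (inj _ (by rw [map_sub, map_smul, hc', sub_self]))⟩
  · have ty := (T.Ty F.K).smul_mem (hT.tp.push sp ((T.Ty F.U).mul_mem tτ tx)) (2 : ℝ)⁻¹
    rw [ker x hx] at dx z x0 ⊢
    rw [pw] at z
    rw [sq, it]
    exact hT.ho.hr kL i j hij _ ty (dgp _ _ dx) (inj _ z) fun f => x0 (by rw [f, map_zero])

end Vale.Agent.P280Z.Mb
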