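import Vale.Agent.P280Z.Mb.Sk
import Vale.Agent.P280Z.Mp.Bf
import Vale.Agent.P280Z.Mp.Free
import Vale.Agent.P280Z.Co.Vbl
import Vale.Agent.P281Z.Sc.Bd

/-!
# P280Z, block Ma: the relative tangent bundle of the evaluation map along the curves
-/

open scoped Manifold ContDiff Topology Matrix Matrix.Norms.Elementwise
open Set Filter Function
open Vale.Agent.P272.K Vale.Agent.P285.H281.FD Vale.Agent.P281Z Vale.Agent.P280Z.Mp
open Vale.Agent.P277Z.Slc (lin)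
open Vale.Agent.P277.HD (pull)
open Vale.Agent.P280Z.Pu (p2)
open Vale.Agent.P280Z.Ma (Dg ds fr KNA)
open Vale.Agent.P280Z.Sq (Hy)

noncomputable section

namespace Vale.Agent.P280Z.Mb

namespace InvX

variable {d N r : ℕ}

theorem hm_ml (z : Cm 2) (ψ : BF d N) : Hm (d + 1) fun y => lf z y • ev ψ y :=
  ((hm_lf z).mul (hm_ev ψ)).cast (add_comm 1 d)

/-- the product with the linear form which vanishes at `z` -/
def ml (z : Cm 2) : BF d N →ₗ[ℂ] BF (d + 1) N where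
  toFun ψ := co (d + 1) fun y => lf z y • ev ψ y
  map_add' a b := ev_inj fun y => by
    rw [ev_add, (hm_ml z _).ev_co, (hm_ml z _).ev_co, (hm_ml z _).ev_co, ev_add, smul_add]
  map_smul' c a := ev_inj fun y => by
    rw [RingHom.id_apply, ev_smul, (hm_ml z _).ev_co, (hm_ml z _).ev_co, ev_smul, smul_comm]

theorem ev_ml (z : Cm 2) (ψ : BF d N) (y : Cm 2) : ev (ml z ψ) y = lf z y • ev ψ y :=
  (hm_ml z ψ).ev_co y

/-- the division by this form -/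
def dv (w z : Cm 2) (b : BF (d + 1) N) : BF d N :=
  (-1 : ℂ) • act (fun k : Fin (d + 1) => act b !![w 0, z 0; w 1, z 1] k.castSucc)
    !![z 1, -z 0; -w 1, w 0]

theorem ml_dv {w z : Cm 2} (hw : lf w z = 1) {b : BF (d + 1) N} (h0 : ev b z = 0) :
    ml z (dv w z b) = b := ev_inj fun y => by
  rw [lf] at hw
  have h1 : act b !![w 0, z 0; w 1, z 1] (Fin.last _) = 0 := by
    refine (ev_snd _).symm.trans ((ev_act _ _ _).trans (Eq.trans ?_ h0))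
    exact congrArg (ev b) (funext fun k => by fin_cases k <;> simp)
  have h2 : ∀ a : BF (d + 1) N, a (Fin.last _) = 0 → ∀ z,
      ev a z = z 0 • ev (fun k : Fin (d + 1) => a k.castSucc) z := fun a h1 z => by
    rw [ev, Fin.sum_univ_castSucc, h1, smul_zero, add_zero, ev, Finset.smul_sum]
    refine Finset.sum_congr rfl fun k _ => ?_
    rw [smul_smul, Fin.val_castSucc, show d + 1 - k.val = d - k.val + 1 by omega]
    congr 1
    ring
  have h3 : !![w 0, z 0; w 1, z 1] *ᵥ (!![z 1, -z 0; -w 1, w 0] *ᵥ y) = y := funext fun k => by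
    fin_cases k <;> simp [Matrix.mulVec, dotProduct, Fin.sum_univ_two]
    · linear_combination y 0 * hw
    · linear_combination y 1 * hw
  rw [ev_ml, dv, ev_smul, ev_act]
  refine Eq.trans ?_ ((h2 _ h1 _).symm.trans ((ev_act _ _ _).trans (congrArg (ev b) h3)))
  rw [smul_smul]
  congr 1
  simp [Matrix.mulVec, dotProduct, Fin.sum_univ_two, lf]
  ring

theorem lf_ne {w z : Cm 2} (hw : lf w z = 1) : ∃ y, lf z y ≠ 0 :=
  ⟨w, fun h => one_ne_zero (α := ℂ) (by rw [← hw]; rw [lf] at h ⊢; linear_combination -h)⟩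

theorem tg_swap {P : Eqs r N} {e : ℕ} (hP : Hom P e) {a : BF (d + 1) N} {w z : Cm 2}
    (hw : lf w z = 1) {ψ : BF d N} (h : ml z ψ ∈ Tg P a) (z' : Cm 2) : ml z' ψ ∈ Tg P a :=
  fun y => (ev_dPsi hP a _ y).symm.trans ((hm_lf z).cancel (lf_ne hw) (hm_ev _) (fun y => by
    have := h y
    rw [ev_ml, Matrix.mulVec_smul] at this
    rw [ev_dPsi hP, ev_ml, Matrix.mulVec_smul, smul_comm, this, smul_zero]) y)

theorem ker_swap {a : BF (d + 1) N} (ha : Nz a) {w z : Cm 2} (hw : lf w z = 1) {ψ : BF d N}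
    (h : ∃ ξ : M2, ml z ψ = inf a ξ ∧ ∃ c : ℂ, ξ *ᵥ z = c • z) (z' : Cm 2) :
    ∃ ξ : M2, ml z' ψ = inf a ξ ∧ ∃ c : ℂ, ξ *ᵥ z' = c • z' := by
  obtain ⟨ξ, h1, c, h2⟩ := h
  have hz : z ≠ 0 := by rintro rfl; simp [lf] at hw
  have hc : c = 0 := by
    have := congrArg (ev · z) h1
    simp only [ev_ml, ev_inf, h2, map_smul, euler, smul_smul] at this
    rw [show lf z z = 0 by rw [lf]; ring, zero_smul, eq_comm, smul_eq_zero, mul_eq_zero] at this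
    exact (this.resolve_right (ha z hz)).resolve_right (by exact_mod_cast d.succ_ne_zero)
  have h3 : ∀ y, ξ *ᵥ y = lf z y • -(ξ *ᵥ w) := fun y => by
    have : y = lf w y • z - lf z y • w := funext fun k => by
      rw [lf] at hw
      fin_cases k <;> simp [lf]
      · linear_combination (-y 0) * hw
      · linear_combination (-y 1) * hw
    conv_lhs => rw [this]
    rw [Matrix.mulVec_sub, Matrix.mulVec_smul, Matrix.mulVec_smul, h2, hc, zero_smul, smul_zero,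
      zero_sub, smul_neg]
  have h4 : ∀ y, Matrix.vecMulVec (-(ξ *ᵥ w)) ![-z' 1, z' 0] *ᵥ y = lf z' y • -(ξ *ᵥ w) :=
    fun y => funext fun k => by
      generalize -(ξ *ᵥ w) = u
      simp [Matrix.mulVec, dotProduct, Matrix.vecMulVec_apply, Fin.sum_univ_two, lf]
      ring
  refine ⟨_, sub_eq_zero.1 (ev_inj fun y => ?_), 0, (h4 z').trans (by
    rw [show lf z' z' = 0 by rw [lf]; ring, zero_smul, zero_smul])⟩
  rw [ev_zero]
  refine (hm_lf z).cancel (lf_ne hw) (hm_ev _) (fun y => ?_) y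
  have : ev (ml z ψ) y = ev (inf a ξ) y := by rw [h1]
  rw [ev_ml, ev_inf, h3 y, map_smul] at this
  rw [ev_sub, ev_ml, ev_inf, h4, map_smul, smul_sub, smul_comm, this, smul_comm, sub_self]

theorem act_ml {g : M2} {z z' : Cm 2} {c : ℂ} (hc : c ≠ 0) (h : g *ᵥ z' = c • z) (ψ : BF d N) :
    act (ml z ψ) g = ml z' ((g.det / c) • act ψ g) := ev_inj fun y => by
  rw [ev_act, ev_ml, ev_ml, ev_smul, ev_act, smul_smul]
  congr 1
  have h0 := congrFun h 0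
  have h1 := congrFun h 1
  simp only [Matrix.mulVec, dotProduct, Fin.sum_univ_two, Pi.smul_apply, smul_eq_mul] at h0 h1
  simp only [lf, Matrix.mulVec, dotProduct, Fin.sum_univ_two, Matrix.det_fin_two]
  field_simp
  linear_combination (g 0 0 * y 0 + g 0 1 * y 1) * h1 - (g 1 0 * y 0 + g 1 1 * y 1) * h0

theorem tg_act {P : Eqs r N} {a b : BF d N} (h : b ∈ Tg P a) (g : M2) :
    act b g ∈ Tg P (act a g) := fun y => by rw [ev_act, ev_act]; exact h _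

/-- a vector with `lf (wj j) (zz j t) = 1` -/
def wj (j : Fin 2) : Cm 2 := if j = 0 then ![0, -1] else ![1, 0]

theorem lf_wj (j : Fin 2) (t : ℂ) : lf (wj j) (zz j t) = 1 := by
  fin_cases j <;> simp [wj, zz, lf]

theorem an_ml : ContDiff ℂ ω fun q : Cm 2 × BF d N => ml q.1 q.2 := by
  refine contDiff_iff_contDiffAt.2 fun q => ?_
  have h : ∀ y : Cm 2, ContDiffAt ℂ ω (fun q : Cm 2 × BF d N => lf q.1 y) q := fun y => by
    unfold lf
    fun_prop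
  exact an_co (d := d + 1) (φ := fun (q : Cm 2 × BF d N) y => lf q.1 y • ev q.2 y)
    fun y => (h y).smul (an_ev' (a := fun q : Cm 2 × BF d N => q.2) (z := fun _ => y)
      contDiffAt_snd contDiffAt_const)

theorem an_dv (w : Cm 2) : ContDiff ℂ ω fun q : Cm 2 × BF (d + 1) N => dv w q.1 q.2 := by
  refine contDiff_iff_contDiffAt.2 fun q => ?_
  have h1 : ContDiffAt ℂ ω (fun q : Cm 2 × BF (d + 1) N => act q.2 !![w 0, q.1 0; w 1, q.1 1]) q :=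
    an_act' contDiffAt_snd (an_mat fun i j => by
      fin_cases i <;> fin_cases j <;> simp <;> fun_prop)
  have h2 : ContDiffAt ℂ ω (fun q : Cm 2 × BF (d + 1) N => !![q.1 1, -q.1 0; -w 1, w 0]) q :=
    an_mat fun i j => by fin_cases i <;> fin_cases j <;> simp <;> fun_prop
  exact (an_act' (a := fun q : Cm 2 × BF (d + 1) N => fun k : Fin (d + 1) =>
    act q.2 !![w 0, q.1 0; w 1, q.1 1] k.castSucc)
    (contDiffAt_pi.2 fun k => contDiffAt_pi.1 h1 k.castSucc) h2).const_smul (-1 : ℂ)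

theorem sm_mv {E : Type} [NormedAddCommGroup E] [NormedSpace ℝ E] {x : E} (w : Cm 2)
    {z z' : E → Cm 2} {b : E → BF (d + 1) N} (hz : ContDiffAt ℝ ∞ z x) (hz' : ContDiffAt ℝ ∞ z' x)
    (hb : ContDiffAt ℝ ∞ b x) : ContDiffAt ℝ ∞ (fun y => ml (z' y) (dv w (z y) (b y))) x :=
  ContDiffAt.comp (g := fun q : Cm 2 × BF d N => ml q.1 q.2)
    (f := fun y => (z' y, dv w (z y) (b y))) x
    ((an_ml.of_le le_top).restrict_scalars ℝ).contDiffAt (hz'.prodMk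
      (ContDiffAt.comp (g := fun q : Cm 2 × BF (d + 1) N => dv w q.1 q.2)
        (f := fun y => (z y, b y)) x
        (((an_dv w).of_le le_top).restrict_scalars ℝ).contDiffAt (hz.prodMk hb)))

theorem sm_zz (j : Fin 2) (k : ℕ) : ContDiff ℝ ∞ fun c : Cm (k + 1) => zz j (p2 k 1 c 0) :=
  contDiff_pi.2 fun i => by
    unfold zz p2
    split_ifs <;> fun_prop

theorem ex_map {B V W : Type} [AddCommGroup B] [Module ℂ B] [AddCommGroup V] [Module ℂ V]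
    [AddCommGroup W] [Module ℂ W] (T : Submodule ℂ B) {K : Submodule ℂ V} {L : Submodule ℂ W}
    (θ : B →ₗ[ℂ] V) (η : B →ₗ[ℂ] W) (h1 : ∀ ψ ∈ T, θ ψ ∈ K) (h2 : ∀ ψ ∈ T, η ψ ∈ L)
    (s1 : ∀ v ∈ K, ∃ ψ ∈ T, θ ψ = v) (s2 : ∀ v ∈ L, ∃ ψ ∈ T, η ψ = v)
    (hk : ∀ ψ ∈ T, θ ψ = 0 ↔ η ψ = 0) :
    ∃ Φ : K →ₗ[ℂ] L, Bijective Φ ∧ ∀ ψ ∈ T, ∀ v : K, v.1 = θ ψ → (Φ v).1 = η ψ := by
  obtain ⟨s, hs⟩ := (θ.restrict h1).exists_rightInverse_of_surjective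
    (LinearMap.range_eq_top.2 fun v => let ⟨ψ, k1, k2⟩ := s1 v.1 v.2; ⟨⟨ψ, k1⟩, Subtype.ext k2⟩)
  have hs' : ∀ v : K, θ (s v).1 = v.1 := fun v => congrArg Subtype.val (LinearMap.congr_fun hs v)
  have key : ∀ ψ ∈ T, ∀ v : K, v.1 = θ ψ → η (s v).1 = η ψ := fun ψ hψ v hv => by
    rw [← sub_eq_zero, ← map_sub, ← hk _ (T.sub_mem (s v).2 hψ), map_sub, hs', hv, sub_self]
  refine ⟨(η.restrict h2).comp s, ⟨(injective_iff_map_eq_zero _).2 fun v hv => Subtype.ext ?_,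
    fun v => ?_⟩, key⟩
  · rw [← hs']
    exact (hk _ (s v).2).2 (congrArg Subtype.val hv)
  · obtain ⟨ψ, k1, k2⟩ := s2 v.1 v.2
    exact ⟨⟨θ ψ, h1 ψ k1⟩, Subtype.ext ((key ψ k1 _ rfl).trans k2)⟩

variable {n D k : ℕ} {V : Mf n} {P : Eqs r N} {pt : Cm N → V.X}

theorem at_cu (F : Fam V P pt d D k) {a : Ix F} {j : Fin 2} {x : F.U.X}
    (h : x ∈ (cu F a j).source) : At (cu F a j) x :=
  ⟨((F.chart a.1 a.2).choose_spec.choose_spec.choose_spec.2.2.2.2 j).1, h⟩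

/-- the index of the twisting bundle -/
def ix (F : Fam V P pt d D k) {Z : Type} (q1 q2 : Z → F.U.X) (h : (Dg F q1 q2).ι) :
    (lin ![pull q1 (Tb F), Dg F q1 q2] ![1, -1]).ι :=
  Fin.cons (α := fun a => (![pull q1 (Tb F), Dg F q1 q2] a).ι) (h.1, h.2.1)
    (Fin.cons (α := fun a => (![Dg F q1 q2] a).ι) h fun a => a.elim0)

theorem ix_mem (F : Fam V P pt d D k) {Z : Type} {q1 q2 : Z → F.U.X} {h : (Dg F q1 q2).ι} {w : Z}
    (hw : w ∈ (Dg F q1 q2).U h) :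
    w ∈ (lin ![pull q1 (Tb F), Dg F q1 q2] ![1, -1]).U (ix F q1 q2 h) :=
  Fin.forall_fin_two.2 ⟨hw.1, hw⟩

theorem g_eq (F : Fam V P pt d D k) {Z : Type} (q1 q2 : Z → F.U.X) (h h') (w : Z) :
    (lin ![pull q1 (Tb F), Dg F q1 q2] ![1, -1]).g h h' w =
      (Tb F).g (h 0) (h' 0) (q1 w) * ((Dg F q1 q2).g (h 1) (h' 1) w)⁻¹ := by
  refine (Fin.prod_univ_two (fun a => (![pull q1 (Tb F), Dg F q1 q2] a).g (h a) (h' a) w ^
    (![1, -1] a : ℤ))).trans ?_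
  show (Tb F).g (h 0) (h' 0) (q1 w) ^ (1 : ℤ) * (Dg F q1 q2).g (h 1) (h' 1) w ^ (-1 : ℤ) = _
  rw [zpow_one, zpow_neg_one]

theorem gm_co (hg : GLOC) {e : ℕ} (F : Fam V P pt d D k) (H : Hy V P e pt d F.M) {a b c : Ix F}
    {y : F.K.X} (ha : y ∈ (ck F a).source) (hb : y ∈ (ck F b).source) (hc : y ∈ (ck F c).source) :
    ∃ ζ : ℂ, ζ ≠ 0 ∧ gm F a c y = ζ • (gm F a b y * gm F b c y) := by
  obtain ⟨g1, -, -, -, g5, -⟩ := hg F H
  have u : IsUnit (gm F a b y * gm F b c y).det := by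
    rw [Matrix.det_mul]
    exact (mul_ne_zero (g5 a b y ha hb).1 (g5 b c y hb hc).1).isUnit
  obtain ⟨ζ, h1, h2⟩ := H.free _ (g1 a y ha).1
    (gm F a c y * (gm F a b y * gm F b c y)⁻¹) (by
      rw [← act_act, ← (g5 a c y ha hc).2.1, (g5 b c y hb hc).2.1, (g5 a b y ha hb).2.1, act_act,
        act_act, ← Matrix.mul_assoc, Matrix.mul_nonsing_inv _ u, act_one])
  refine ⟨ζ, fun h => by simp [h, H.pos.ne'] at h1, ?_⟩
  rw [← Matrix.nonsing_inv_mul_cancel_right _ (gm F a c y) u, h2, Matrix.smul_mul, Matrix.one_mul]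

theorem gc_co (hg : GLOC) {e : ℕ} (F : Fam V P pt d D k) (H : Hy V P e pt d F.M)
    {a b c : Ix F × Fin 2} {x : F.U.X} (hb : x ∈ (cu F b.1 b.2).source)
    (hc : x ∈ (cu F c.1 c.2).source) {ζ : ℂ}
    (h : gm F a.1 c.1 (F.p x) = ζ • (gm F a.1 b.1 (F.p x) * gm F b.1 c.1 (F.p x))) :
    gc F a c x = ζ * (gc F a b x * gc F b c x) := by
  rw [gc, h, Matrix.smul_mulVec, ← Matrix.mulVec_mulVec, ((hg F H).2.2.2.2.2 b c x hb hc).2,
    Matrix.mulVec_smul, mul_comm (gc F a b x)]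
  rfl

theorem cf_ix (hg : GLOC) (hl : LBS) {e : ℕ} (F : Fam V P pt d D k) (H : Hy V P e pt d F.M)
    {Z : Type} {q1 q2 : Z → F.U.X} {w : Z} (hq : F.p (q2 w) = F.p (q1 w))
    {h h' : (Dg F q1 q2).ι} (hw : w ∈ (Dg F q1 q2).U h) (hw' : w ∈ (Dg F q1 q2).U h') :
    cf _ (ix F q1 q2 h) w ≠ 0 ∧ cf _ (ix F q1 q2 h') w = cf _ (ix F q1 q2 h) w *
      (gc F (h.1, h.2.2) (h'.1, h'.2.2) (q2 w) / gc F (h.1, h.2.1) (h'.1, h'.2.1) (q1 w)) := by
  obtain ⟨-, g2, -, -, g5, g6⟩ := hg F H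
  have hT := (hl F H).2.1
  have hx : ∃ c, w ∈ (lin ![pull q1 (Tb F), Dg F q1 q2] ![1, -1]).U c := ⟨_, ix_mem F hw⟩
  simp only [cf, dif_pos hx, g_eq]
  have m0 : q1 w ∈ (Tb F).U (hx.choose 0) := hx.choose_spec 0
  have m1 : w ∈ (Dg F q1 q2).U (hx.choose 1) := hx.choose_spec 1
  generalize hx.choose 0 = c at m0 ⊢
  generalize hx.choose 1 = l at m1 ⊢
  obtain ⟨ζ, z0, z1⟩ := gm_co hg F H (g2 _ _ _ m1.1).1 (g2 _ _ _ hw.1).1 (g2 _ _ _ hw'.1).1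
  have e1 := gc_co hg F H (a := (l.1, l.2.1)) (b := (h.1, h.2.1)) (c := (h'.1, h'.2.1)) hw.1 hw'.1 z1
  have e2 := gc_co hg F H (a := (l.1, l.2.2)) (b := (h.1, h.2.2)) (c := (h'.1, h'.2.2)) hw.2 hw'.2
    (by rw [hq]; exact z1)
  have e3 := hT.cocycle c (h.1, h.2.1) (h'.1, h'.2.1) _ m0 hw.1 hw'.1
  have n1 := hT.ne_zero c (h.1, h.2.1) _ m0 hw.1
  have n2 := (g5 _ _ _ (g2 _ _ _ m1.1).1 (g2 _ _ _ hw.1).1).1
  have n3 := (g5 _ _ _ (g2 _ _ _ hw.1).1 (g2 _ _ _ hw'.1).1).1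
  have n4 := (g6 (l.1, l.2.1) (h.1, h.2.1) _ m1.1 hw.1).1
  have n5 := (g6 (l.1, l.2.2) (h.1, h.2.2) _ m1.2 hw.2).1
  have n6 := (g6 (h.1, h.2.1) (h'.1, h'.2.1) _ hw.1 hw'.1).1
  have n7 := (g6 (h.1, h.2.2) (h'.1, h'.2.2) _ hw.2 hw'.2).1
  refine ⟨mul_ne_zero n1 (inv_ne_zero (div_ne_zero n2 (mul_ne_zero n4 n5))), ?_⟩
  show (Tb F).g c (h'.1, h'.2.1) (q1 w) * ((gm F l.1 h'.1 (F.p (q1 w))).det /
    (gc F (l.1, l.2.1) (h'.1, h'.2.1) (q1 w) * gc F (l.1, l.2.2) (h'.1, h'.2.2) (q2 w)))⁻¹ =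
    (Tb F).g c (h.1, h.2.1) (q1 w) * ((gm F l.1 h.1 (F.p (q1 w))).det /
    (gc F (l.1, l.2.1) (h.1, h.2.1) (q1 w) * gc F (l.1, l.2.2) (h.1, h.2.2) (q2 w)))⁻¹ * _
  rw [← e3, e1, e2, z1, Matrix.det_smul, Matrix.det_mul, Fintype.card_fin]
  show _ * ((gm F h.1 h'.1 (F.p (q1 w))).det / gc F (h.1, h.2.1) (h'.1, h'.2.1) (q1 w) ^ 2) * _ = _
  field_simp

end InvX

open InvX

theorem inv_of (v : VBL) (hg : GLOC) (hl : LBS) (_ : P1C) (hk : KER) : INV := by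
  intro n N r e d D k V P pt F H Z q1 q2 hC m E hE
  obtain ⟨d, rfl⟩ : ∃ d', d = d' + 1 := ⟨d - 1, by have := H.pos; omega⟩
  obtain ⟨ι, O, b, rfl, hS⟩ := hE
  obtain ⟨g1, g2, g3, g4, g5, g6⟩ := hg F H
  obtain ⟨J, S, k1, k2⟩ := hk F H
  have hP := H.cone.hom
  obtain ⟨θ, hθ⟩ : ∃ θ : Ix F → Fin 2 → F.U.X → BF d N →ₗ[ℂ] Cm (k + 1), ∀ a j x ψ,
      θ a j x ψ = fr (cu F a j) x (J a j (cu F a j x) (ml (rz F a j x) ψ)) :=
    ⟨fun a j x => ((fr (cu F a j) x).comp (J a j (cu F a j x))).toLinearMap.comp (ml (rz F a j x)),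
      fun _ _ _ _ => rfl⟩
  have hw : ∀ a j x, lf (wj j) (rz F a j x) = 1 := fun a j x => lf_wj j _
  have bij : ∀ {a j x}, x ∈ (cu F a j).source → Bijective (fr (cu F a j) x) := fun h =>
    (v.tan F.U).bij _ _ (at_cu F h)
  have t1 : ∀ {a j x ψ}, x ∈ (cu F a j).source → ml (rz F a j x) ψ ∈ Tg P (ra F a (F.p x)) →
      θ a j x ψ ∈ LinearMap.ker (Df (k + 1) n F.e x) := fun {a j x ψ} h h' => by
    rw [hθ]
    exact (k1 a j x h).2.2.1 _ h' (by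
      rw [ev_ml, show lf (rz F a j x) (rz F a j x) = 0 by rw [lf]; ring, zero_smul])
  have t2 : ∀ {a j x u}, x ∈ (cu F a j).source → Df (k + 1) n F.e x (fr (cu F a j) x u) = 0 →
      ml (rz F a j x) (dv (wj j) (rz F a j x) (S a j (cu F a j x) u)) ∈ Tg P (ra F a (F.p x)) ∧
      θ a j x (dv (wj j) (rz F a j x) (S a j (cu F a j x) u)) = fr (cu F a j) x u :=
    fun {a j x u} h h' => by
      obtain ⟨l1, l2, l3⟩ := (k1 a j x h).2.2.2.1 u h'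
      rw [hθ, ml_dv (hw a j x) l2, l3]
      exact ⟨l1, rfl⟩
  have t3 : ∀ {a j x j' x' ψ}, x ∈ (cu F a j).source → x' ∈ (cu F a j').source → F.p x' = F.p x →
      ml (rz F a j x) ψ ∈ Tg P (ra F a (F.p x)) → θ a j x ψ = 0 → θ a j' x' ψ = 0 :=
    fun {a j x j' x' ψ} h h' hq hψ h0 => by
      rw [hθ, map_eq_zero_iff _ (bij h).1, (k1 a j x h).2.2.2.2 _ hψ] at h0
      rw [hθ, map_eq_zero_iff _ (bij h').1, (k1 a j' x' h').2.2.2.2 _
        (by rw [hq]; exact tg_swap hP (hw a j x) hψ _), hq]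
      exact ker_swap (F.cd _ (g1 a _ (g2 a j x h).1).1).1.nz (hw a j x) h0 _
  have t4 : ∀ {a j a' j' x ψ}, x ∈ (cu F a j).source → x ∈ (cu F a' j').source →
      ml (rz F a j x) ψ ∈ Tg P (ra F a (F.p x)) →
      ml (rz F a' j' x) (((gm F a a' (F.p x)).det / gc F (a, j) (a', j') x) •
        act ψ (gm F a a' (F.p x))) ∈ Tg P (ra F a' (F.p x)) ∧
      θ a' j' x (((gm F a a' (F.p x)).det / gc F (a, j) (a', j') x) •
        act ψ (gm F a a' (F.p x))) = θ a j x ψ := fun {a j a' j' x ψ} h h' hψ => by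
    have := g6 (a, j) (a', j') x h h'
    rw [hθ, hθ, ← act_ml this.1 this.2, (g5 a a' _ (g2 a j x h).1 (g2 a' j' x h').1).2.1]
    exact ⟨tg_act hψ _, k2 a j a' j' x h h' _ hψ⟩
  have cov : ∀ w, ∃ h, w ∈ (Dg F q1 q2).U h := fun w => by
    obtain ⟨a, ha⟩ := g4 (F.p (q1 w))
    obtain ⟨j, hj⟩ := g3 a _ ha
    obtain ⟨j', hj'⟩ := g3 a (q2 w) (by rw [hC.comm]; exact ha)
    exact ⟨(a, j, j'), hj, hj'⟩
  have ex : ∀ w, ∃ φ : LinearMap.ker (Df (k + 1) n F.e (q1 w)) →ₗ[ℂ]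
      LinearMap.ker (Df (k + 1) n F.e (q2 w)), Bijective φ ∧ ∀ h, w ∈ (Dg F q1 q2).U h → ∀ ψ,
      ml (rz F h.1 h.2.1 (q1 w)) ψ ∈ Tg P (ra F h.1 (F.p (q1 w))) → ∀ u,
      u.1 = θ h.1 h.2.1 (q1 w) ψ →
        cf _ (ix F q1 q2 h) w • (φ u).1 = θ h.1 h.2.2 (q2 w) ψ := fun w => by
    obtain ⟨⟨a, j, j'⟩, h1, h2⟩ := cov w
    have hq := hC.comm w
    obtain ⟨Φ, l1, l2⟩ := ex_map ((Tg P (ra F a (F.p (q1 w)))).comap (ml (rz F a j (q1 w))))
      (θ a j (q1 w)) (θ a j' (q2 w)) (fun ψ hψ => t1 h1 hψ)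
      (fun ψ hψ => t1 h2 (by rw [hq]; exact tg_swap hP (hw _ _ _) hψ _))
      (fun u hu => by
        obtain ⟨u, rfl⟩ := (bij h1).2 u
        exact ⟨_, t2 h1 hu⟩)
      (fun u hu => by
        obtain ⟨u, rfl⟩ := (bij h2).2 u
        exact ⟨_, tg_swap hP (hw _ _ _) (hq ▸ (t2 h2 hu).1) _, (t2 h2 hu).2⟩)
      fun ψ hψ => ⟨t3 h1 h2 hq hψ, t3 h2 h1 hq.symm
        (by rw [hq]; exact tg_swap hP (hw _ _ _) hψ _)⟩
    have c0 := (cf_ix hg hl F H hq (h := (a, j, j')) ⟨h1, h2⟩ ⟨h1, h2⟩).1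
    refine ⟨(cf _ (ix F q1 q2 (a, j, j')) w)⁻¹ • Φ,
      (MulAction.bijective (Units.mk0 _ (inv_ne_zero c0))).comp l1, fun h hh ψ hψ u hu => ?_⟩
    obtain ⟨c1, c2⟩ := cf_ix hg hl F H hq (h' := (a, j, j')) hh ⟨h1, h2⟩
    obtain ⟨m1, m2⟩ := t4 hh.1 h1 hψ
    have m3 := (t4 hh.2 h2 (by rw [hq]; exact tg_swap hP (hw _ _ _) hψ _)).2
    have n1 := (g6 (h.1, h.2.1) (a, j) _ hh.1 h1).1
    have n2 := (g6 (h.1, h.2.2) (a, j') _ hh.2 h2).1
    rw [LinearMap.smul_apply, Submodule.coe_smul, l2 _ m1 u (hu.trans m2.symm), ← m3, hq, c2,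
      map_smul, map_smul, smul_smul, smul_smul]
    congr 1
    field_simp
  choose φ hφ1 hφ2 using ex
  refine ⟨φ, v.lift (v.pull _ hC.hg' hS.v1) (v.pull _ hC.hg' hS.v2) (v.hpull hC.hg' hS.h1)
    (fun w => hS.inj _) fun w => ?_, hφ1⟩
  obtain ⟨⟨a, j, j'⟩, h1, h2⟩ := cov w
  obtain ⟨i, hi⟩ := hS.v1.cover (q1 w)
  obtain ⟨μ, s1, s2⟩ := v.all hS.v1 hS.v2 hS.h1 i (cu F a j) _ hi (at_cu F h1)
  have a1 := hC.sf'.hol.at w
  have a2 := hC.hg'.at w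
  refine ⟨(i, ix F q1 q2 (a, j, j')), cu F a j', ⟨hi, ix_mem F ⟨h1, h2⟩⟩, at_cu F h2,
    fun w => Matrix.of fun s t => J a j' (cu F a j' (q2 w)) (ml (rz F a j' (q2 w))
      (dv (wj j) (rz F a j (q1 w)) (S a j (cu F a j (q1 w)) fun l => μ (q1 w) l t))) s,
    fun c hc s t => ?_, ?_⟩
  · have b1 := ((a1.an hc (at_cu F h1)).contDiffAt (n := ∞)).restrict_scalars ℝ
    have b2 := ((a2.an hc (at_cu F h2)).contDiffAt (n := ∞)).restrict_scalars ℝ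
    have b3 : ContDiffAt ℝ ∞ (fun z => S a j (cu F a j (q1 (c.symm z)))) (c w) :=
      ContDiffAt.comp (g := S a j) _ (by rw [hc.left_inv]; exact (k1 a j _ h1).2.1) b1
    have b4 : ContDiffAt ℝ ∞ (fun z => J a j' (cu F a j' (q2 (c.symm z)))) (c w) :=
      ContDiffAt.comp (g := J a j') _ (by rw [hc.left_inv]; exact (k1 a j' _ h2).1) b2
    have app : ∀ {A B : Type} [NormedAddCommGroup A] [NormedSpace ℂ A] [NormedAddCommGroup B]
        [NormedSpace ℂ B] {f : Cm (k + 1 + 1) → A →L[ℂ] B} {g : Cm (k + 1 + 1) → A},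
        ContDiffAt ℝ ∞ f (c w) → ContDiffAt ℝ ∞ g (c w) →
        ContDiffAt ℝ ∞ (fun z => f z (g z)) (c w) := fun {A B} _ _ _ _ _ _ hf hg' =>
      (((ContinuousLinearMap.restrictScalarsL ℂ A B ℝ ℝ).contDiff.contDiffAt.comp _ hf).clm_apply
        hg' :)
    exact contDiffAt_pi.1 (app b4 (sm_mv _ ((sm_zz j k).contDiffAt.comp _ b1)
      ((sm_zz j' k).contDiffAt.comp _ b2)
      (app b3 (contDiffAt_pi.2 fun l => VblH.sm_comp a1 s1 c hc l t)))) s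
  · filter_upwards [a1.cont.eventually s2, a1.cont.eventually ((cu F a j).open_source.mem_nhds h1),
      a2.cont.eventually ((cu F a j').open_source.mem_nhds h2)] with y y0 y1 y2
    refine LinearMap.pi_ext' fun t => LinearMap.ext_ring ?_
    have e1 : (b i (q1 y) (Pi.single t 1)).1 = fr (cu F a j) (q1 y) fun l => μ (q1 y) l t :=
      (LinearMap.congr_fun y0 (Pi.single t 1)).trans (congrArg (fr (cu F a j) (q1 y))
        ((Matrix.toLin'_apply _ _).trans (Matrix.mulVec_single_one _ _)))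
    have e2 := t2 y1 (e1 ▸ (b i (q1 y) (Pi.single t 1)).2)
    have e3 := hφ2 y (a, j, j') ⟨y1, y2⟩ _ e2.1 _ (e1.trans e2.2.symm)
    rw [hθ] at e3
    refine Eq.trans ?_ (e3.trans (congrArg (fr (cu F a j') (q2 y))
      (Eq.symm ((Matrix.toLin'_apply _ _).trans (Matrix.mulVec_single_one _ _)))))
    exact congrArg Subtype.val ((φ y).map_smul _ _)

end Vale.Agent.P280Z.Mb
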