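import Vale.Agent.P280Z.Mb.Sk
import Vale.Agent.P280Z.Mp.Bf
import Vale.Agent.P280Z.Mp.Free
import Vale.Agent.P281Z.Mf.Loc

/-!
# P280Z, block Ma: the changes of parametrisation
-/

open scoped Manifold ContDiff Topology Matrix Matrix.Norms.Elementwise
open Set Filter
open Vale.Agent.P272.K Vale.Agent.P281Z Vale.Agent.P280Z.Mp
open Vale.Agent.P280Z.Pu (ap p1 p2)
open Vale.Agent.P277Z (Hol)
open Vale.Agent.P280Z.Ma (Dg ds fr KNA)
open Vale.Agent.P280Z.Sq (Hy)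

noncomputable section

namespace Vale.Agent.P280Z.Mb

namespace Gl

variable {n N r e d D k : ℕ} {V : Mf n} {P : Eqs r N} {pt : Cm N → V.X}

theorem zz_ne (j : Fin 2) (t : ℂ) : zz j t ≠ 0 := fun h => one_ne_zero (α := ℂ) (by
  simpa only [zz, if_true, Pi.zero_apply] using congrFun h j)

theorem zz_self (j : Fin 2) (t : ℂ) : zz j t j = 1 := if_pos rfl

theorem ex_zz {z : Cm 2} (h : z ≠ 0) : ∃ (j : Fin 2) (t c : ℂ), z = c • zz j t := by
  by_cases h0 : z 0 = 0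
  · have h1 : z 1 ≠ 0 := fun h1 => h (funext (Fin.forall_fin_two.2 ⟨h0, h1⟩))
    exact ⟨1, 0, z 1, funext (Fin.forall_fin_two.2 ⟨by simp [zz, h0], by simp [zz]⟩)⟩
  · exact ⟨0, z 1 / z 0, z 0, funext (Fin.forall_fin_two.2
      ⟨by simp [zz], by simp [zz, mul_div_cancel₀ _ h0]⟩)⟩

theorem mv_ne (hd : 0 < d) {a : BF d N} {g : M2} (h : Nz (act a g)) {z : Cm 2} (hz : z ≠ 0) :
    g *ᵥ z ≠ 0 := fun q => h z hz (by
  rw [ev_act, q, ← zero_smul ℂ z, ev_arg, zero_pow hd.ne', zero_smul])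

theorem det_ne (hd : 0 < d) {a : BF d N} {g : M2} (h : Nz (act a g)) : g.det ≠ 0 := fun q =>
  let ⟨_, hz, q'⟩ := Matrix.exists_mulVec_eq_zero_iff.2 q
  mv_ne hd h hz q'

theorem crv_act {a : BF d N} {g : M2} (h : Crv P a) (hg : g.det ≠ 0) : Crv P (act a g) :=
  fun z hz => by
    rw [ev_act]
    exact h _ fun q => hg (Matrix.exists_mulVec_eq_zero_iff.1 ⟨z, hz, q⟩)

theorem act_inv (a : BF d N) {g : M2} (hg : g.det ≠ 0) : act (act a g) g⁻¹ = a := by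
  rw [act_act, Matrix.mul_nonsing_inv _ hg.isUnit, act_one]

theorem inv_act (a : BF d N) {g : M2} (hg : g.det ≠ 0) : act (act a g⁻¹) g = a := by
  rw [act_act, Matrix.nonsing_inv_mul _ hg.isUnit, act_one]

theorem uniq {a : BF d N}
    (hL : ∀ g : M2, act a g = a → ∃ c : ℂ, c ^ d = 1 ∧ g = c • (1 : M2)) {g g' : M2} (hg : g.det ≠ 0)
    (q : act a g' = act a g) : ∃ ζ : ℂ, ζ ^ d = 1 ∧ g' = ζ • g := by
  obtain ⟨c, h1, h2⟩ := hL (g' * g⁻¹) (by rw [← act_act, q, act_inv a hg])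
  refine ⟨c, h1, ?_⟩
  rw [← Matrix.nonsing_inv_mul_cancel_right g g' hg.isUnit, h2, Matrix.smul_mul, Matrix.one_mul]

theorem p1_ap (t : Cm k) (z : Cm 1) : p1 k 1 (ap t z) = t := funext fun i => Fin.append_left t z i

theorem p2_ap (t : Cm k) (z : Cm 1) : p2 k 1 (ap t z) = z := funext fun i => Fin.append_right t z i

theorem ap_p (w : Cm (k + 1)) : ap (p1 k 1 w) (p2 k 1 w) = w := Fin.append_castAdd_natAdd

variable (F : Fam V P pt d D k) (a b : Ix F) (j : Fin 2) {x : F.U.X} {y : F.K.X}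

theorem spec : Slice P D a.1 (ck F a).target (sl F a) ∧ ck F a ∈ atlas (Cm k) F.K.X ∧
    (∀ v ∈ (ck F a).target, (ck F a).symm v = F.pk (sl F a v)) ∧
    (∀ v ∈ (ck F a).target, F.M (sl F a v)) ∧ ∀ j, cu F a j ∈ atlas (Cm (k + 1)) F.U.X ∧ (cu F a j).target = p1 k 1 ⁻¹' (ck F a).target ∧
      ∀ w ∈ (cu F a j).target,
        (cu F a j).symm w = F.pu (sl F a (p1 k 1 w)) (zz j (p2 k 1 w 0)) :=
  (F.chart a.1 a.2).choose_spec.choose_spec.choose_spec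

theorem at_ck (h : y ∈ (ck F a).source) : At (ck F a) y := ⟨(spec F a).2.1, h⟩

theorem at_cu (h : x ∈ (cu F a j).source) : At (cu F a j) x := ⟨((spec F a).2.2.2.2 j).1, h⟩

theorem ra_m (h : y ∈ (ck F a).source) : F.M (ra F a y) :=
  (spec F a).2.2.2.1 _ ((ck F a).map_source h)

theorem ra_cd (h : y ∈ (ck F a).source) : CD P D (ra F a y) := F.cd _ (ra_m F a h)

theorem pk_ra (h : y ∈ (ck F a).source) : F.pk (ra F a y) = y :=
  ((spec F a).2.2.1 _ ((ck F a).map_source h)).symm.trans ((ck F a).left_inv h)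

theorem cu_src (h : x ∈ (cu F a j).source) : F.p x ∈ (ck F a).source ∧
    ck F a (F.p x) = p1 k 1 (cu F a j x) ∧ F.pu (ra F a (F.p x)) (rz F a j x) = x := by
  obtain ⟨-, -, h1, s, h2⟩ := spec F a
  obtain ⟨-, h3, h4⟩ := h2 j
  have hw := (cu F a j).map_source h
  have e1 := ((cu F a j).left_inv h).symm.trans (h4 _ hw)
  rw [h3, mem_preimage] at hw
  have e2 : F.p x = (ck F a).symm (p1 k 1 (cu F a j x)) :=
    ((congrArg F.p e1).trans (F.p_pu _ _ (s _ hw) (zz_ne _ _))).trans (h1 _ hw).symm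
  have e3 : ck F a (F.p x) = p1 k 1 (cu F a j x) := by rw [e2, (ck F a).right_inv hw]
  exact ⟨e2 ▸ (ck F a).map_target hw, e3, by rw [ra, e3]; exact e1.symm⟩

theorem cu_eq (h : x ∈ (cu F a j).source) :
    cu F a j x = ap (ck F a (F.p x)) (p2 k 1 (cu F a j x)) := by
  rw [(cu_src F a j h).2.1, ap_p]

/-- the points with given fibre coordinate -/
theorem pu_zz (h : y ∈ (ck F a).source) (t : ℂ) :
    F.pu (ra F a y) (zz j t) ∈ (cu F a j).source ∧
      cu F a j (F.pu (ra F a y) (zz j t)) = ap (ck F a y) fun _ => t := by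
  obtain ⟨-, h3, h4⟩ := (spec F a).2.2.2.2 j
  have hw : ap (ck F a y) (fun _ => t) ∈ (cu F a j).target := by
    rw [h3, mem_preimage, p1_ap]
    exact (ck F a).map_source h
  have e := h4 _ hw
  rw [p1_ap, p2_ap] at e
  rw [ra, ← e]
  exact ⟨(cu F a j).map_target hw, (cu F a j).right_inv hw⟩

theorem rz_ne (x : F.U.X) : rz F a j x ≠ 0 := zz_ne _ _

theorem rz_self (x : F.U.X) : rz F a j x j = 1 := zz_self _ _

theorem ex_cu (hd : 0 < d) (h : F.p x ∈ (ck F a).source) : ∃ j, x ∈ (cu F a j).source := by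
  obtain ⟨a', z, h1, h2, rfl⟩ := F.pu_onto x
  obtain ⟨g, hg⟩ := (F.pk_eq _ a' (ra_m F a h) h1).1 ((pk_ra F a h).trans (F.p_pu _ _ h1 h2))
  obtain ⟨j, t, c, q⟩ := ex_zz (mv_ne hd (hg ▸ (F.cd _ h1).1.nz) h2)
  refine ⟨j, ?_⟩
  have := (pu_zz F a j h t).1
  rwa [(F.pu_eq _ a' _ z (ra_m F a h) h1 (zz_ne j t) h2).2 ⟨g, c, hg, q⟩] at this

theorem ex_ck (y : F.K.X) : ∃ a, y ∈ (ck F a).source := by
  obtain ⟨a, h, rfl⟩ := F.pk_onto y
  obtain ⟨s, -, h1, -⟩ := spec F ⟨a, h⟩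
  have := (ck F ⟨a, h⟩).map_target s.mem
  rw [h1 _ s.mem, s.zero] at this
  exact ⟨_, this⟩

theorem gm_act (h : y ∈ (ck F a).source) (h' : y ∈ (ck F b).source) :
    ra F b y = act (ra F a y) (gm F a b y) := by
  have q := (F.pk_eq _ _ (ra_m F a h) (ra_m F b h')).1 ((pk_ra F a h).trans (pk_ra F b h').symm)
  rw [gm, dif_pos q]
  exact q.choose_spec

theorem gm_det (hd : 0 < d) (h : y ∈ (ck F a).source) (h' : y ∈ (ck F b).source) :
    (gm F a b y).det ≠ 0 := det_ne hd (gm_act F a b h h' ▸ (ra_cd F b h').1.nz)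

theorem ra_an (h : y ∈ (ck F a).source) : AnV k (ra F a) y :=
  (anV_chart (at_ck F a h)).cmp ((spec F a).1.an _ ((ck F a).map_source h))

theorem ra_hol (h : y ∈ (ck F a).source) (i : Fin (d + 1)) (l : Fin N) :
    Hol k (fun y => ra F a y i l) y := fun c hc =>
  analyticAt_pi_iff.1 (analyticAt_pi_iff.1 (ra_an F a h c hc) i) l

theorem rz_hol (h : x ∈ (cu F a j).source) (i : Fin 2) : Hol (k + 1) (fun x => rz F a j x i) x := by
  by_cases q : i = j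
  · simp only [rz, zz, if_pos q]
    exact fun _ _ => analyticAt_const
  · simp only [rz, zz, if_neg q]
    exact hol_chart (at_cu F a j h) _

theorem rz_an (h : x ∈ (cu F a j).source) : AnV (k + 1) (rz F a j) x := .pi (rz_hol F a j h)

theorem gm_loc (hd : 0 < d) (hL : Hy V P e pt d F.M) (h : y ∈ (ck F a).source) (h' : y ∈ (ck F b).source) :
    ∃ g : F.K.X → M2, (∀ i j, Hol k (fun y' => g y' i j) y) ∧
      ∀ᶠ y' in 𝓝 y, ∃ ζ : ℂ, ζ ^ d = 1 ∧ gm F a b y' = ζ • g y' := by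
  obtain ⟨s, -, h1, hm, -⟩ := spec F a
  have g0 := gm_det F a b hd h h'
  obtain ⟨vv, gg, v1, g1, v2, -, q⟩ := s.loc _ ((ck F a).map_source h)
  have e0 : sl F a (ck F a y) = act (ra F b y) (gm F a b y)⁻¹ := by
    rw [gm_act F a b h h', act_inv _ g0, ra]
  rw [e0] at v1 g1 v2 q
  have hβ : AnV k (fun y' => act (ra F b y') (gm F a b y)⁻¹) y :=
    (ra_an F b h').cmp (G := fun u => act u (gm F a b y)⁻¹)
      (an_act' contDiffAt_id contDiffAt_const).analyticAt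
  have hg : AnV k (fun y' => gg (act (ra F b y') (gm F a b y)⁻¹)) y := hβ.cmp g1
  refine ⟨fun y' => gg (act (ra F b y') (gm F a b y)⁻¹) * gm F a b y, fun i j c hc => ?_, ?_⟩
  · simp only [Matrix.mul_apply]
    exact Finset.analyticAt_fun_sum _ fun l _ =>
      ((an_ent i l).contDiffAt.analyticAt.fun_comp (hg c hc)).mul analyticAt_const
  filter_upwards [hβ.cont.eventually q, (hβ.cmp v1).cont.eventually
    (s.opn.mem_nhds (mem_of_eq_of_mem v2 ((ck F a).map_source h))), (ck F a).open_source.mem_nhds h,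
    (ck F b).open_source.mem_nhds h'] with y' k1 k2 k3 k4
  have c1 := ra_cd F b k4
  have e1 := congrArg (act · (gm F a b y)) (k1 (crv_act c1.1 (by
    rw [Matrix.det_nonsing_inv, Ring.inverse_eq_inv]
    exact inv_ne_zero g0)))
  simp only [inv_act _ g0] at e1
  rw [act_act] at e1
  have e2 := ((F.pk_eq _ _ (hm _ k2) (ra_m F b k4)).2 ⟨_, e1⟩).trans (pk_ra F b k4)
  rw [← h1 _ k2] at e2
  rw [← (ck F a).right_inv k2, e2] at e1
  exact uniq (hL.free _ (ra_m F a k3)) (det_ne hd (e1 ▸ c1.1.nz)) ((gm_act F a b k3 k4).symm.trans e1)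

theorem gc_spec (hd : 0 < d) (hL : Hy V P e pt d F.M) (a b : Ix F × Fin 2) (h : x ∈ (cu F a.1 a.2).source)
    (h' : x ∈ (cu F b.1 b.2).source) :
    gc F a b x ≠ 0 ∧ gm F a.1 b.1 (F.p x) *ᵥ rz F b.1 b.2 x = gc F a b x • rz F a.1 a.2 x := by
  obtain ⟨h1, -, h2⟩ := cu_src F _ _ h
  obtain ⟨h3, -, h4⟩ := cu_src F _ _ h'
  have c := ra_cd F _ h3
  obtain ⟨g, t, e1, e2⟩ := (F.pu_eq _ _ _ _ (ra_m F _ h1) (ra_m F _ h3) (rz_ne F _ _ x)
    (rz_ne F _ _ x)).1 (h2.trans h4.symm)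
  obtain ⟨ζ, -, e3⟩ := uniq (hL.free _ (ra_m F _ h1)) (det_ne hd (e1 ▸ c.1.nz))
    ((gm_act F _ _ h1 h3).symm.trans e1)
  have e4 : gm F a.1 b.1 (F.p x) *ᵥ rz F b.1 b.2 x = gc F a b x • rz F a.1 a.2 x := by
    rw [gc, e3, Matrix.smul_mulVec, e2, smul_smul, Pi.smul_apply, rz_self, smul_eq_mul, mul_one]
  refine ⟨fun q => mv_ne hd (gm_act F _ _ h1 h3 ▸ c.1.nz) (rz_ne F b.1 b.2 x) ?_, e4⟩
  rw [e4, q, zero_smul]

end Gl

open Gl in
/-- row GLOC -/
theorem gloc : GLOC := fun F H =>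
  ⟨fun a _ h => ⟨ra_m F a h, pk_ra F a h⟩,
    fun a j _ h => ⟨(cu_src F a j h).1, (cu_src F a j h).2.2⟩, fun a _ => ex_cu F a H.pos, ex_ck F,
    fun a b _ h h' => ⟨gm_det F a b H.pos h h', gm_act F a b h h', gm_loc F a b H.pos H h h'⟩,
    fun a b _ => gc_spec F H.pos H a b⟩

end Vale.Agent.P280Z.Mb
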