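import Vale.Agent.P280Z.Mb.Sk
import Vale.Agent.P280Z.Ma.O1p
import Vale.Agent.P280Z.Mp.Free
import Vale.Agent.P281Z.Sc.Sy

/-!
# P280Z, block Ma: the line bundles on a family of rational curves
-/

open scoped Manifold ContDiff Topology Matrix
open Set Filter
open Vale.Agent.P272.K Vale.Agent.P285.H281.FD Vale.Agent.P281Z Vale.Agent.P280Z.Mp
open Vale.Agent.P277Z (Hol hol_const)
open Vale.Agent.P277Z.Slc (lin)
open Vale.Agent.P277.HD (pull)
open Vale.Agent.P280Z.Ma (Dg ds fr KNA)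
open Vale.Agent.P280Z.Sq (Hy)
open Vale.Agent.P280Z.Ma

noncomputable section

namespace Vale.Agent.P280Z.Mb

namespace Lbs

variable {n N r e d D k : ℕ} {V : Mf n} {P : Eqs r N} {pt : Cm N → V.X} {F : Fam V P pt d D k}

theorem ck_at {a : Ix F} {y : F.K.X} (h : y ∈ (ck F a).source) : At (ck F a) y :=
  ⟨(F.chart a.1 a.2).choose_spec.choose_spec.choose_spec.2.1, h⟩

theorem cu_at {a : Ix F} {j : Fin 2} {x : F.U.X} (h : x ∈ (cu F a j).source) : At (cu F a j) x :=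
  ⟨((F.chart a.1 a.2).choose_spec.choose_spec.choose_spec.2.2.2.2 j).1, h⟩

theorem hol_ra {a : Ix F} {y : F.K.X} (h : y ∈ (ck F a).source) (j : Fin (d + 1)) (l : Fin N) :
    Hol k (fun y => ra F a y j l) y :=
  P277Z.hol_comp (ck_at h) (f := fun z => sl F a z j l) (analyticAt_pi_iff.1 (analyticAt_pi_iff.1
    ((F.chart a.1 a.2).choose_spec.choose_spec.choose_spec.1.an _ ((ck F a).map_source h)) j) l)

theorem rz_self (a : Ix F) (j : Fin 2) (x : F.U.X) : rz F a j x j = 1 := if_pos rfl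

theorem rz_ne (a : Ix F) (j : Fin 2) (x : F.U.X) : rz F a j x ≠ 0 :=
  Function.ne_iff.2 ⟨j, (rz_self a j x).trans_ne one_ne_zero⟩

theorem hol_rz {a : Ix F} {j : Fin 2} {x : F.U.X} (h : x ∈ (cu F a j).source) (l : Fin 2) :
    Hol (k + 1) (fun x => rz F a j x l) x := by
  unfold rz zz
  split_ifs
  exacts [hol_const _ _, hol_chart (cu_at h) _]

/-- the point of the cone over `e x` in the chart `b` -/
def xx (F : Fam V P pt d D k) (b : Ix F × Fin 2) (x : F.U.X) : Cm N :=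
  ev (ra F b.1 (F.p x)) (rz F b.1 b.2 x)

theorem hol_xx {b : Ix F × Fin 2} {x : F.U.X} (h : x ∈ (cu F b.1 b.2).source)
    (h' : F.p x ∈ (ck F b.1).source) (l : Fin N) : Hol (k + 1) (fun x => xx F b x l) x := by
  simp only [xx, ev, Finset.sum_apply, Pi.smul_apply, smul_eq_mul]
  exact Hol.sum _ fun j _ => (((hol_rz h 0).pow _).mul ((hol_rz h 1).pow _)).mul
    (F.p_hol.hol (hol_ra h' j l))

theorem coc (g : GLOC) (H : Hy V P e pt d F.M) {a b c : Ix F} {y : F.K.X} (ha : y ∈ (ck F a).source)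
    (hb : y ∈ (ck F b).source) (hc : y ∈ (ck F c).source) :
    ∃ ζ : ℂ, ζ ^ d = 1 ∧ gm F a b y * gm F b c y = ζ • gm F a c y := by
  obtain ⟨h1, -, -, -, h2, -⟩ := g F H
  obtain ⟨k1, k2, -⟩ := h2 a c y ha hc
  obtain ⟨ζ, h3, h4⟩ := H.free _ (h1 a y ha).1
    (gm F a b y * gm F b c y * (gm F a c y)⁻¹) (by
      rw [← act_act, ← act_act, ← (h2 a b y ha hb).2.1, ← (h2 b c y hb hc).2.1, k2, act_act,
        Matrix.mul_nonsing_inv _ k1.isUnit, act_one])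
  exact ⟨ζ, h3, by rw [← Matrix.nonsing_inv_mul_cancel_right _ (gm F a b y * gm F b c y) k1.isUnit,
    h4, Matrix.smul_mul, Matrix.one_mul]⟩

theorem det_smul2 (ζ : ℂ) (g : M2) : (ζ • g).det = ζ ^ 2 * g.det := by
  rw [Matrix.det_smul, Fintype.card_fin]

theorem det_pow {ζ : ℂ} (h : ζ ^ d = 1) (g : M2) : (ζ • g).det⁻¹ ^ d = g.det⁻¹ ^ d := by
  rw [det_smul2, mul_inv, mul_pow, inv_pow, ← pow_mul, mul_comm 2, pow_mul, h, one_pow, inv_one,
    one_mul]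

theorem lam (g : GLOC) (H : Hy V P e pt d F.M) : IsLB k (Lam F) where
  isOpen a := (ck F a).open_source
  cover := (g F H).2.2.2.1
  holo a b χ y he ha hb := by
    obtain ⟨h1, -, G, h2, h3⟩ := (g F H).2.2.2.2.1 a b y ha hb
    obtain ⟨ζ, -, h4⟩ := h3.self_of_nhds
    exact (((((hol_det' h2).inv fun h0 => h1 (by rw [h4, det_smul2, h0, mul_zero])).pow d).congr
      (h3.mono fun y' ⟨ζ, k1, k2⟩ => by rw [← det_pow k1, ← k2]; rfl)) χ he).contDiffAt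
  ne_zero a b y ha hb := pow_ne_zero _ (inv_ne_zero ((g F H).2.2.2.2.1 a b y ha hb).1)
  cocycle a b c y ha hb hc := by
    obtain ⟨ζ, h1, h2⟩ := coc g H ha hb hc
    show _ ^ d * _ ^ d = _ ^ d
    rw [← mul_pow, ← mul_inv, ← Matrix.det_mul, h2, det_pow h1]

theorem tb (g : GLOC) (H : Hy V P e pt d F.M) : IsLB (k + 1) (Tb F) where
  isOpen a := (cu F a.1 a.2).open_source
  cover x :=
    let ⟨a, ha⟩ := (g F H).2.2.2.1 (F.p x)
    let ⟨j, hj⟩ := (g F H).2.2.1 a x ha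
    ⟨(a, j), hj⟩
  holo a b χ x he ha hb := by
    obtain ⟨-, h0, -, -, h1, h2⟩ := g F H
    obtain ⟨-, -, G, h3, h4⟩ := h1 a.1 b.1 _ (h0 _ _ x ha).1 (h0 _ _ x hb).1
    have h5 : Hol (k + 1) (fun x => (G (F.p x) *ᵥ rz F b.1 b.2 x) a.2) x :=
      Hol.sum Finset.univ fun l _ => (F.p_hol.hol (h3 a.2 l)).mul (hol_rz hb l)
    obtain ⟨ζ, -, h6⟩ := h4.self_of_nhds
    refine ((((F.p_hol.hol (hol_det' h3)).div (h5.pow 2) (pow_ne_zero 2 fun k =>
      (h2 a b x ha hb).1 ?_)).congr (((F.p_hol.cont.tendsto x).eventually h4).mono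
        fun y ⟨ζ, k1, k2⟩ => ?_)) χ he).contDiffAt
    · unfold gc
      rw [h6, Matrix.smul_mulVec, Pi.smul_apply, k, smul_zero]
    · have k3 : ζ ≠ 0 := fun k => by simp [k, H.pos.ne'] at k1
      show _ = _ / gc F a b y ^ 2
      unfold gc
      rw [k2, det_smul2, Matrix.smul_mulVec, Pi.smul_apply, smul_eq_mul, mul_pow,
        mul_div_mul_left _ _ (pow_ne_zero 2 k3)]
  ne_zero a b x ha hb :=
    let ⟨_, h0, _, _, h1, h2⟩ := g F H
    div_ne_zero (h1 a.1 b.1 _ (h0 _ _ x ha).1 (h0 _ _ x hb).1).1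
      (pow_ne_zero 2 (h2 a b x ha hb).1)
  cocycle a b c x ha hb hc := by
    obtain ⟨-, h0, -, -, -, h2⟩ := g F H
    obtain ⟨ζ, k1, k2⟩ := coc g H (h0 _ _ x ha).1 (h0 _ _ x hb).1 (h0 _ _ x hc).1
    have k3 : ζ ≠ 0 := fun k => by simp [k, H.pos.ne'] at k1
    have k4 := congrArg (fun m => (m *ᵥ rz F c.1 c.2 x) a.2) k2
    simp only [← Matrix.mulVec_mulVec, (h2 b c x hb hc).2, Matrix.mulVec_smul, (h2 a b x ha hb).2,
      Matrix.smul_mulVec, (h2 a c x ha hc).2, Pi.smul_apply, rz_self, smul_eq_mul, mul_one] at k4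
    show _ / _ * (_ / _) = _ / _
    rw [div_mul_div_comm, ← Matrix.det_mul, k2, det_smul2, ← mul_pow, mul_comm (gc F a b x), k4,
      mul_pow, mul_div_mul_left _ _ (pow_ne_zero 2 k3)]

theorem xx_rp (g : GLOC) (H : Hy V P e pt d F.M) {b : Ix F × Fin 2} {x : F.U.X}
    (h : x ∈ (cu F b.1 b.2).source) : ∃ c : ℂ, c ≠ 0 ∧ xx F b x = c • rp P pt (F.e x) := by
  obtain ⟨h1, h2, -⟩ := g F H
  have h3 := (h1 _ _ (h2 _ _ x h).1).1
  exact O1p.eq_rp H.cone ((F.cd _ h3).1 _ (rz_ne _ _ x))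
    ((F.e_pu _ _ h3 (rz_ne _ _ x)).symm.trans (congrArg F.e (h2 _ _ x h).2))

theorem xx_chg (g : GLOC) (H : Hy V P e pt d F.M) {a b : Ix F × Fin 2} {x : F.U.X}
    (ha : x ∈ (cu F a.1 a.2).source) (hb : x ∈ (cu F b.1 b.2).source) :
    xx F b x = gc F a b x ^ d • xx F a x := by
  obtain ⟨-, h0, -, -, h1, h2⟩ := g F H
  rw [xx, (h1 a.1 b.1 _ (h0 _ _ x ha).1 (h0 _ _ x hb).1).2.1, ev_act, (h2 a b x ha hb).2, ev_arg, xx]

theorem trv (g : GLOC) (H : Hy V P e pt d F.M) :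
    Trv (k + 1) (lin ![pull F.e (O1 P pt), pull F.p (Lam F), Tb F] ![2, -1, -(d : ℤ)]) := by
  have hl := lam (F := F) g H
  have h0 := (g F H).2.1
  have h1 : ∀ (i : Fin N) (b : Ix F × Fin 2) x, rp P pt (F.e x) i ≠ 0 →
      x ∈ (cu F b.1 b.2).source → xx F b x i ≠ 0 := fun i b x hi hb => by
    obtain ⟨c, k1, k2⟩ := xx_rp g H hb
    rw [k2]
    exact mul_ne_zero k1 hi
  refine ⟨fun h x => (xx F (h 2) x (h 0) ^ 2 * (Lam F).g (h 1) (show Ix F × Fin 2 from h 2).1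
    (F.p x))⁻¹, isSec_of (fun h x hx => ?_) fun h h' x hx hx' => ?_, fun x h hx => inv_ne_zero
      (mul_ne_zero (pow_ne_zero 2 (h1 _ _ x (hx 0) (hx 2)))
        (hl.ne_zero _ _ _ (hx 1) (h0 _ _ x (hx 2)).1))⟩
  · exact (((hol_xx (hx 2) (h0 _ _ x (hx 2)).1 _).pow 2).mul
      (F.p_hol.hol (lb_hol hl (hx 1) (h0 _ _ x (hx 2)).1))).inv
      (mul_ne_zero (pow_ne_zero 2 (h1 _ _ x (hx 0) (hx 2)))
        (hl.ne_zero _ _ _ (hx 1) (h0 _ _ x (hx 2)).1))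
  · have key : ∀ (i i' : Fin N) (a a' : Ix F) (b b' : Ix F × Fin 2), rp P pt (F.e x) i ≠ 0 →
        rp P pt (F.e x) i' ≠ 0 → F.p x ∈ (ck F a).source → F.p x ∈ (ck F a').source →
        x ∈ (cu F b.1 b.2).source → x ∈ (cu F b'.1 b'.2).source →
        (xx F b x i ^ 2 * (Lam F).g a b.1 (F.p x))⁻¹ =
          (rp P pt (F.e x) i' / rp P pt (F.e x) i) ^ (2 : ℤ) * (Lam F).g a a' (F.p x) ^ (-1 : ℤ) *
            ((gm F b.1 b'.1 (F.p x)).det / gc F b b' x ^ 2) ^ (-d : ℤ) *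
            (xx F b' x i' ^ 2 * (Lam F).g a' b'.1 (F.p x))⁻¹ := by
      intro i i' a a' b b' hi hi' ha ha' hb hb'
      obtain ⟨c, k1, k2⟩ := xx_rp g H hb
      have k3 := (hl.cocycle a a' b'.1 _ ha ha' (h0 _ _ x hb').1).trans
        (hl.cocycle a b.1 b'.1 _ ha (h0 _ _ x hb).1 (h0 _ _ x hb').1).symm
      have k4 := hl.ne_zero a a' _ ha ha'
      have k5 := hl.ne_zero a b.1 _ ha (h0 _ _ x hb).1
      have k6 := ((g F H).2.2.2.2.2 b b' x hb hb').1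
      have k7 := ((g F H).2.2.2.2.1 b.1 b'.1 _ (h0 _ _ x hb).1 (h0 _ _ x hb').1).1
      rw [show (Lam F).g b.1 b'.1 (F.p x) = (gm F b.1 b'.1 (F.p x)).det⁻¹ ^ d from rfl,
        ← eq_inv_mul_iff_mul_eq₀ k4] at k3
      rw [xx_chg g H hb hb', k2, k3, zpow_neg _ (d : ℤ), zpow_natCast, div_pow, ← pow_mul,
        mul_comm 2 d, pow_mul, inv_pow]
      simp only [Pi.smul_apply, smul_eq_mul]
      field_simp
    exact (key _ _ _ _ _ _ (hx 0) (hx' 0) (hx 1) (hx' 1) (hx 2) (hx' 2)).trans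
      (congrArg (· * _) (Fin.prod_univ_three fun a => (![pull F.e (O1 P pt), pull F.p (Lam F), Tb F]
        a).g (h a) (h' a) x ^ (![2, -1, -(d : ℤ)] a)).symm)

end Lbs

theorem lbs_of (g : GLOC) (_o : O1P) : LBS := fun _ H => ⟨Lbs.lam g H, Lbs.tb g H, Lbs.trv g H⟩

end Vale.Agent.P280Z.Mb
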