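import Vale.Agent.P280Z.Mb.Kn

/-!
# P280Z, block Ma: the universal curve is projective
-/

open scoped Manifold ContDiff Topology Matrix ComplexOrder
open Set Filter
open Vale.Agent.P272.K Vale.Agent.P285.H281.FD Vale.Agent.P281Z Vale.Agent.P280Z.Mp
open Vale.Agent.P277Z (trans_an)
open Vale.Agent.P277Z.Slc (tr)
open Vale.Agent.P280Z.Pu (p1 p2)
open Vale.Agent.P284Y.Lib
open Vale.Agent.P280Z.Ma (Dg ds fr KNA)
open Vale.Agent.P280Z.Sq (Hy)
open Vale.Agent.P280Z.Ma.Up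

noncomputable section

namespace Vale.Agent.P280Z.Mb

namespace Up

variable {n N r d D k : ℕ} {V : Mf n} {P : Eqs r N} {pt : Cm N → V.X} (F : Fam V P pt d D k)

/-- the square of the norm -/
def nq (z : Cm 2) : ℝ := ‖z 0‖ ^ 2 + ‖z 1‖ ^ 2

theorem nq_zz (c : ℂ) (j : Fin 2) (t : ℂ) : nq (c • zz j t) = ‖c‖ ^ 2 * (1 + ‖t‖ ^ 2) := by
  fin_cases j <;> simp [nq, zz] <;> ring

theorem zz_ne (j : Fin 2) (t : ℂ) : zz j t ≠ 0 := fun h => by simpa [zz] using congrFun h j

/-- the metric of Fubini and Study in the slice `a` -/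
def fs (a : Ix F) (i : (Tb F).ι) (x : F.U.X) : ℝ :=
  2 * Real.log (nq (gm F a i.1 (F.p x) *ᵥ rz F i.1 i.2 x)) - Real.log (‖(gm F a i.1 (F.p x)).det‖ ^ 2)

theorem ck_p {a : Ix F} {j : Fin 2} {x : F.U.X} (h : x ∈ (cu F a j).source) :
    ck F a (F.p x) = p1 k 1 (cu F a j x) := by
  obtain ⟨-, -, h1, h2, h3⟩ := spec F a
  have h4 := (cu F a j).map_source h
  have h5 : p1 k 1 (cu F a j x) ∈ (ck F a).target := by
    rw [(h3 j).2.1] at h4
    exact h4
  rw [← (ck F a).right_inv h5, h1 _ h5, ← F.p_pu _ _ (h2 _ h5) (zz_ne j _), ← (h3 j).2.2 _ h4,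
    (cu F a j).left_inv h]

theorem p12 {w : Cm (k + 1)} (h1 : p1 k 1 w = 0) (h2 : p2 k 1 w 0 = 0) : w = 0 :=
  funext fun i => Fin.addCases (fun i => congrFun h1 i) (fun j => by
    rw [Subsingleton.elim j 0]
    exact h2) i

end Up

open Up in
theorem up_of (g : GLOC) (l : LBS) : UP := by
  intro n N r e d D k V P pt F H hP
  obtain ⟨-, g2, g3, g4, g5, g6⟩ := g F H
  obtain ⟨l1, l2, -⟩ := l F H
  have h1 : ∀ a j (i : (Tb F).ι) x, x ∈ (cu F a j).source → x ∈ (Tb F).U i → fs F a i x =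
      2 * Real.log (1 + ‖p2 k 1 (cu F a j x) 0‖ ^ 2) - Real.log (‖(Tb F).g (a, j) i x‖ ^ 2) :=
    fun a j i x hj hi => by
      obtain ⟨k1, k2⟩ := g6 (a, j) i x hj hi
      have k3 := norm_ne_zero_iff.2 (g5 a i.1 _ (g2 a j x hj).1 (g2 _ _ x hi).1).1
      have k4 := norm_ne_zero_iff.2 k1
      show _ = _ - Real.log (‖(gm F a i.1 (F.p x)).det / gc F (a, j) i x ^ 2‖ ^ 2)
      rw [fs, k2, rz, nq_zz, Real.log_mul (pow_ne_zero _ k4) (by positivity), norm_div, norm_pow]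
      simp only [Real.log_pow, Real.log_div k3 (pow_ne_zero 2 k4)]
      ring
  refine (glue (L := Tb F) F.p_hol (fun a => (ck F a).source) (fun a => (ck F a).open_source) g4
    (fs F) (fun a i x c ha hi hc => ?_) fun a i i' x ha hi hi' => ?_).elim
      fun ψ h => rel_pos F.p_hol l2 l1 hP h.1 h.2
  · obtain ⟨j, hj⟩ := g3 a x ha
    have k1 : At (cu F a j) x := ⟨((spec F a).2.2.2.2 j).1, hj⟩
    have k2 := trans_an k1 hc
    have k3 := fun i => analyticAt_pi_iff.1 k2 i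
    have k4 : AnalyticAt ℂ (fun z => p2 k 1 (cu F a j (c.symm z)) 0) (c x) := k3 _
    have k5 := lg_sm l2 (i := (a, j)) hc hj hi
    have k6 := sm_log k4 1 (by positivity)
    have k7 : (fun z => fs F a i (c.symm z)) =ᶠ[𝓝 (c x)] fun z =>
        2 * Real.log (1 + ‖p2 k 1 (cu F a j (c.symm z)) 0‖ ^ 2) -
          Real.log (‖(Tb F).g (a, j) i (c.symm z)‖ ^ 2) :=
      (at_ev hc ((at_near k1).and ((l2.isOpen i).eventually_mem hi))).mono fun z hz =>
        h1 a j i _ hz.1.2 hz.2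
    refine ⟨((contDiffAt_const.mul k6).sub k5.1).congr_of_eventuallyEq k7, fun v hv h0 => ?_⟩
    have k8 : ∀ i, fderiv ℂ (fun z => cu F a j (c.symm z) i) (c x) v = tr (cu F a j) c x v i :=
      fun i => by
        rw [tr, fderiv_pi fun i => (k3 i).differentiableAt]
        rfl
    have k9 : fderiv ℂ (fun z => p2 k 1 (cu F a j (c.symm z)) 0) (c x) v ≠ 0 := fun k9 =>
      hv (tr_inj k1 hc ((p12 (funext fun i => ?_) ((k8 _).symm.trans k9)).trans (map_zero _).symm))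
    · rw [Lv, levi_congr k7, levi_sub ((contDiffAt_const.mul k6).of_le two_le_inf)
        (k5.1.of_le two_le_inf), k5.2, sub_zero, levi_const_mul (k6.of_le two_le_inf),
        levi_lg k4 1 (by positivity)]
      have := norm_pos_iff.2 k9
      positivity
    · have m1 := congrFun (h0 (ck F a) ⟨(spec F a).2.1, ha⟩) i
      have m2 : (fun z => ck F a (F.p (c.symm z))) =ᶠ[𝓝 (c x)]
          fun z i => cu F a j (c.symm z) (Fin.castAdd 1 i) :=
        (at_ev hc (at_near k1)).mono fun z hz => ck_p F hz.2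
      rw [df, m2.fderiv_eq, fderiv_pi fun i => (k3 _).differentiableAt] at m1
      exact (k8 _).symm.trans m1
  · obtain ⟨j, hj⟩ := g3 a x ha
    rw [h1 a j i x hj hi, h1 a j i' x hj hi', ← l2.cocycle (a, j) i i' x hj hi hi', norm_mul, mul_pow,
      Real.log_mul (pow_ne_zero _ (norm_ne_zero_iff.2 (l2.ne_zero (a, j) i x hj hi)))
        (pow_ne_zero _ (norm_ne_zero_iff.2 (l2.ne_zero i i' x hi hi')))]
    ring

end Vale.Agent.P280Z.Mb
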