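import Vale.Agent.P280Z.Mb.Gloc
import Vale.Agent.P280Z.Mb.Lbs
import Vale.Agent.P280Z.Mb.P1c
import Vale.Agent.P280Z.Mb.Inv
import Vale.Agent.P280Z.Mb.Ker
import Vale.Agent.P280Z.Mb.Up
import Vale.Agent.P280Z.Mb.Nsa
import Vale.Agent.P280Z.Cv.Cmp
import Vale.Agent.P280Z.Sq.Api

/-!
# P280Z, block Mb: the abstract family of a family of curves
-/

open scoped Manifold ContDiff Topology Matrix
open Set Filter
open Vale.Agent.P272.K Vale.Agent.P285.H281.FD Vale.Agent.P281Z Vale.Agent.P280Z.Mp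
open Vale.Agent.P277Z.Slc (lin at_chartAt)
open Vale.Agent.P277.HD (pull)
open Vale.Agent.P277 (Bd.inv)
open Vale.Agent.P280Z.Ma (Dg ds trv_c1 lb2 lb3)
open Vale.Agent.P280Z.Sq (Pf PFX Hy)

noncomputable section

namespace Vale.Agent.P280Z.Mb

theorem lbs : LBS := lbs_of gloc Ma.o1p

theorem p1c : P1C := p1c_of gloc lbs

theorem inv : INV := inv_of vbl gloc lbs p1c ker

theorem kn : KN := kn_of gloc (Ma.kna_of Ma.kn1)

theorem up : UP := up_of gloc lbs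

theorem p1x : P1X := by
  intro n N r e d D k V P pt F H
  have sp : Sub (k + 1) k F.p := ⟨F.p_hol, F.p_sbm⟩
  obtain ⟨Z, q1, q2, hc, h2, -, hu⟩ := fp (k + 1 + 1) F.p F.p (by omega) sp F.p_hol
  obtain ⟨δ, hδ, hd⟩ := hu F.U (fun x => x) (fun x => x) holM_id holM_id fun _ => rfl
  obtain ⟨c1, c2, c3⟩ := p1c F H Z q1 q2 hc δ hδ (fun x => (hd x).1) fun x => (hd x).2
  exact ⟨⟨Z, q1, q2, δ, Dg F q1 q2, ds F q1 q2, rfl, (lbs F H).2.1, hc, ⟨hc.hg', h2 F.p_sbm⟩, c1,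
    fun x => (hd x).1, fun x => (hd x).2, c2, c3⟩, fun m E hE => inv F H Z q1 q2 hc m E hE⟩

theorem pfx_of (cov : Gm.COV) : PFX := by
  intro T hT hR n N r e d D k V P pt F hF H hc
  have sp : Sub (k + 1) k F.p := ⟨F.p_hol, F.p_sbm⟩
  have se : Sub (k + 1) n F.e := ⟨F.e_hol, F.e_sbm⟩
  obtain ⟨o1, o2, -⟩ := Ma.o1p V P pt H.cone
  obtain ⟨l1, l2, l3⟩ := lbs F H
  obtain ⟨Q, hQ⟩ := p1x F H
  obtain ⟨c, hc'⟩ := up F H (kn F H)
  have kH := hT.c1.pos V _ o1 o2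
  have kL := hT.c1.pos _ _ l1 (kn F H)
  have kU := hT.c1.pos _ _ (lb_mul l2 (F.p_hol.lb (lb_pow l1 c))) hc'
  rw [hT.c1.mul _ _ _ l2 (F.p_hol.lb (lb_pow l1 c)), hT.c1.pull F.p_hol _ (lb_pow l1 c),
    hT.c1.pow _ _ _ l1, map_smul] at kU
  have uk : F.U.Kah := (hT.po.kah _).2 ⟨_, kU⟩
  have d0 : (0 : ℝ) < d := by exact_mod_cast H.pos
  have rel := trv_c1 hT F.U _ _ (lb3 (F.e_hol.lb o1) (F.p_hol.lb l1) l2) l3
  simp only [Fin.sum_univ_three, Matrix.cons_val_zero, Matrix.cons_val_one, Matrix.cons_val_two,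
    Matrix.head_cons, Matrix.tail_cons] at rel
  rw [hT.c1.pull F.e_hol _ o1, hT.c1.pull F.p_hol _ l1] at rel
  push_cast at rel
  have kK : F.K.Kah := (hT.po.kah _).2 ⟨_, kL⟩
  have ce := cov T hT hR F.U V F.e se hc hF.1 ((Sq.fa_iff hT).1 hF).2
  refine ⟨⟨k, F.K, F.U, F.p, F.e, Tb F, Q, sp, se, uk, kK, hc, Cv.CmpH.fib F H.pos, ce⟩,
    ⟨Q, sp, se, uk, kK, hc, Cv.CmpH.fib F H.pos, ce, rfl, hQ⟩, hT.po.smul _ (inv_pos.2 d0) kH,
    ⟨(d : ℝ)⁻¹ • T.c1 F.K (Lam F), c * d, hT.po.smul _ (inv_pos.2 d0) kL, ?_, ?_⟩,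
    fun m E hE l => (Ma.lha T hT Q uk).2.2.2 E (Ma.rel.ps T hT F.e_hol hE).1 (hQ m E hE) l⟩
  · change T.c1 F.U (Tb F) = (2 : ℝ) • T.pull F.e_hol _ - T.pull F.p_hol _
    have h := congrArg ((d : ℝ)⁻¹ • ·) rel
    simp only [smul_add, smul_smul, mul_neg, inv_mul_cancel₀ d0.ne', smul_zero] at h
    simp only [map_smul]
    linear_combination (norm := module) -h
  · change T.Kc F.U (T.c1 F.U (Tb F) + ((c : ℝ) * d) • T.pull F.p_hol _)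
    rwa [map_smul, smul_smul, mul_assoc, mul_inv_cancel₀ d0.ne', mul_one]

end Vale.Agent.P280Z.Mb
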