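import Vale.Agent.P280Z.Mb.Sk
import Vale.Agent.P280Z.Ma.UpA

/-!
# P280Z, block Ma: the space of curves is projective
-/

open scoped Manifold ContDiff Topology Matrix ComplexOrder
open Set Filter
open Vale.Agent.P272.K Vale.Agent.P285.H281.FD Vale.Agent.P281Z Vale.Agent.P280Z.Mp
open Vale.Agent.P277Z (trans_an)
open Vale.Agent.P280Z.Pu (p1 p2)
open Vale.Agent.P284Y.Lib
open Vale.Agent.P280Z.Ma (Dg ds fr KNA)
open Vale.Agent.P280Z.Sq (Hy)
open Vale.Agent.P280Z.Ma.Up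

noncomputable section

namespace Vale.Agent.P280Z.Mb

namespace Up

variable {n N r d D k : ℕ} {V : Mf n} {P : Eqs r N} {pt : Cm N → V.X} (F : Fam V P pt d D k)

theorem spec (a : Ix F) : Slice P D a.1 (ck F a).target (sl F a) ∧
    ck F a ∈ atlas (Cm k) F.K.X ∧ (∀ v ∈ (ck F a).target, (ck F a).symm v = F.pk (sl F a v)) ∧
    (∀ v ∈ (ck F a).target, F.M (sl F a v)) ∧ ∀ j, cu F a j ∈ atlas (Cm (k + 1)) F.U.X ∧
      (cu F a j).target = p1 k 1 ⁻¹' (ck F a).target ∧ ∀ w ∈ (cu F a j).target,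
        (cu F a j).symm w = F.pu (sl F a (p1 k 1 w)) (zz j (p2 k 1 w 0)) :=
  (F.chart a.1 a.2).choose_spec.choose_spec.choose_spec

end Up

open Up in
theorem kn_of (g : GLOC) (k : KNA) : KN := by
  intro n N r e d D l V P pt F H
  obtain ⟨m, m1, m2, m3⟩ := k d N H.pos
  obtain ⟨g1, -, -, -, g5, -⟩ := g F H
  have h1 : ∀ a y, y ∈ (ck F a).source → Nz (ra F a y) := fun a y hy z hz =>
    ((F.cd _ (g1 a y hy).1).1 z hz).1
  have h2 : ∀ a (c : Chart l F.K.X) y, At c y → y ∈ (ck F a).source →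
      ContDiffAt ℝ ∞ (fun z => m (ra F a (c.symm z))) (c y) ∧
        (cHess (fun z => m (ra F a (c.symm z))) (c y)).PosDef := fun a c y hc hy => by
    have k1 : At (ck F a) y := ⟨(spec F a).2.1, hy⟩
    have k2 := trans_an k1 hc
    have k3 : AnalyticAt ℂ (sl F a) (ck F a (c.symm (c y))) := by
      rw [hc.left_inv]
      exact (spec F a).1.an _ k1.mem_target
    have k4 : AnalyticAt ℂ (fun z => ra F a (c.symm z)) (c y) :=
      k3.fun_comp (f := fun z => ck F a (c.symm z)) k2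
    have k5 : Nz (ra F a (c.symm (c y))) := hc.left_inv.symm ▸ h1 a y hy
    refine ⟨ContDiffAt.comp (g := m) (c y) (m2 _ k5) (k4.contDiffAt.restrict_scalars ℝ),
      m3 _ _ k5 k4 fun ξ u hu => tr_inj k1 hc (Eq.trans ?_ (map_zero _).symm)⟩
    simp only [ra] at hu
    rw [fderiv_fun_comp (f := fun z => ck F a (c.symm z)) _ k3.differentiableAt
      k2.differentiableAt, hc.left_inv] at hu
    exact ((spec F a).1.ind _ k1.mem_target ξ _ hu).2
  refine ⟨fun a y => d * m (ra F a y), ⟨fun a c y hc hy => contDiffAt_const.mul (h2 a c y hc hy).1,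
    fun a b y ha hb => ?_⟩, fun a c y hc hy => ?_⟩
  · obtain ⟨k1, k2, -⟩ := g5 a b y ha hb
    show _ = _ + Real.log (‖(gm F a b y).det⁻¹ ^ d‖ ^ 2)
    rw [k2, m1 _ _ (h1 a y ha) k1, norm_pow, norm_inv]
    simp only [Real.log_pow, Real.log_inv]
    ring
  · have k1 := (h2 a c y hc hy).1.of_le two_le_inf
    refine (pd_iff (contDiffAt_const.mul k1)).2 fun w hw => ?_
    rw [levi_const_mul k1]
    exact mul_pos (Nat.cast_pos.2 H.pos) ((pd_iff k1).1 (h2 a c y hc hy).2 w hw)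

end Vale.Agent.P280Z.Mb
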