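import Vale.Agent.P280Z.Ma.Sk
import Vale.Agent.P280Z.Sq.Defs

/-!
# P280Z, block Mb: the rows of the block Ma for unsplit families of any degree
-/

open scoped Manifold ContDiff Topology Matrix ComplexOrder
open Set Filter
open Vale.Agent.P272.K Vale.Agent.P285.H281.FD Vale.Agent.P281Z Vale.Agent.P280Z.Mp
open Vale.Agent.P277Z.Slc (lin)
open Vale.Agent.P277.HD (pull)
open Vale.Agent.P280Z.Ma (Dg ds fr)
open Vale.Agent.P280Z.Sq (Hy)

noncomputable section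

namespace Vale.Agent.P280Z.Mb

/-- row GLOC: the changes of parametrisation are locally holomorphic up to roots of unity -/
def GLOC : Prop := ∀ {n N r e d D k : ℕ} {V : Mf n} {P : Eqs r N} {pt : Cm N → V.X}
  (F : Fam V P pt d D k), Hy V P e pt d F.M →
  (∀ a y, y ∈ (ck F a).source → F.M (ra F a y) ∧ F.pk (ra F a y) = y) ∧
  (∀ a j x, x ∈ (cu F a j).source → F.p x ∈ (ck F a).source ∧
    F.pu (ra F a (F.p x)) (rz F a j x) = x) ∧
  (∀ a x, F.p x ∈ (ck F a).source → ∃ j, x ∈ (cu F a j).source) ∧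
  (∀ y, ∃ a, y ∈ (ck F a).source) ∧
  (∀ a b y, y ∈ (ck F a).source → y ∈ (ck F b).source → (gm F a b y).det ≠ 0 ∧
    ra F b y = act (ra F a y) (gm F a b y) ∧
    ∃ g : F.K.X → M2, (∀ i j, P277Z.Hol k (fun y' => g y' i j) y) ∧
      ∀ᶠ y' in 𝓝 y, ∃ ζ : ℂ, ζ ^ d = 1 ∧ gm F a b y' = ζ • g y') ∧
  ∀ (a b : Ix F × Fin 2) x, x ∈ (cu F a.1 a.2).source → x ∈ (cu F b.1 b.2).source →
    gc F a b x ≠ 0 ∧ gm F a.1 b.1 (F.p x) *ᵥ rz F b.1 b.2 x = gc F a b x • rz F a.1 a.2 x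

/-- row LBS: the line bundles and the relation `d τ = 2 H - Λ` -/
def LBS : Prop := ∀ {n N r e d D k : ℕ} {V : Mf n} {P : Eqs r N} {pt : Cm N → V.X}
  (F : Fam V P pt d D k), Hy V P e pt d F.M → IsLB k (Lam F) ∧ IsLB (k + 1) (Tb F) ∧
    Trv (k + 1) (lin ![pull F.e (O1 P pt), pull F.p (Lam F), Tb F] ![2, -1, -(d : ℤ)])

/-- row P1X: the fibre square, its diagonal, and the invariance of the relative tangent bundle
of `e` -/
def P1X : Prop := ∀ {n N r e d D k : ℕ} {V : Mf n} {P : Eqs r N} {pt : Cm N → V.X}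
  (F : Fam V P pt d D k), Hy V P e pt d F.M →
  ∃ Q : P1D F.p (Tb F), ∀ (m : ℕ) (E : VB F.U.X), IsRel F.e m E → Q.Inv E

/-- row KN: the space of curves is projective -/
def KN : Prop := ∀ {n N r e d D k : ℕ} {V : Mf n} {P : Eqs r N} {pt : Cm N → V.X}
  (F : Fam V P pt d D k), Hy V P e pt d F.M → Pos k (Lam F)

/-- row UP: the universal curve is projective -/
def UP : Prop := ∀ {n N r e d D k : ℕ} {V : Mf n} {P : Eqs r N} {pt : Cm N → V.X}
  (F : Fam V P pt d D k), Hy V P e pt d F.M → Pos k (Lam F) →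
  ∃ c : ℕ, Pos (k + 1) ((Tb F).mul (pull F.p ((Lam F).pow c)))

/-- row P1C: the diagonal -/
def P1C : Prop := ∀ {n N r e d D k : ℕ} {V : Mf n} {P : Eqs r N} {pt : Cm N → V.X}
  (F : Fam V P pt d D k), Hy V P e pt d F.M → ∀ (Z : Mf (k + 1 + 1)) (q1 q2 : Z.X → F.U.X),
  Cart F.p F.p q1 q2 → ∀ δ : F.U.X → Z.X, HolM (k + 1) (k + 1 + 1) δ → (∀ x, q1 (δ x) = x) →
  (∀ x, q2 (δ x) = x) → Cut (Dg F q1 q2) (ds F q1 q2) δ ∧
    Trv (k + 1 + 1) (lin ![Dg F q1 q2, pull q1 (Tb F), pull q2 (Tb F)] ![2, -1, -1]) ∧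
    Trv (k + 1) (lin ![pull δ (Dg F q1 q2), Tb F] ![1, -1])

/-- row KER: the kernel of the differential of `e`; `J a j w b` is the tangent vector, in the chart
`(a, j)`, of the deformation `b` of the curve at the fixed parameter -/
def KER : Prop := ∀ {n N r e d D k : ℕ} {V : Mf n} {P : Eqs r N} {pt : Cm N → V.X}
  (F : Fam V P pt d D k), Hy V P e pt d F.M →
  ∃ (J : Ix F → Fin 2 → Cm (k + 1) → BF d N →L[ℂ] Cm (k + 1))
    (S : Ix F → Fin 2 → Cm (k + 1) → Cm (k + 1) →L[ℂ] BF d N),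
    (∀ a j x, x ∈ (cu F a j).source →
      ContDiffAt ℝ ∞ (J a j) (cu F a j x) ∧ ContDiffAt ℝ ∞ (S a j) (cu F a j x) ∧
      (∀ b ∈ Tg P (ra F a (F.p x)), ev b (rz F a j x) = 0 →
        Df (k + 1) n F.e x (fr (cu F a j) x (J a j (cu F a j x) b)) = 0) ∧
      (∀ v, Df (k + 1) n F.e x (fr (cu F a j) x v) = 0 →
        S a j (cu F a j x) v ∈ Tg P (ra F a (F.p x)) ∧
        ev (S a j (cu F a j x) v) (rz F a j x) = 0 ∧
        J a j (cu F a j x) (S a j (cu F a j x) v) = v) ∧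
      ∀ b ∈ Tg P (ra F a (F.p x)), J a j (cu F a j x) b = 0 ↔
        ∃ ξ : M2, b = inf (ra F a (F.p x)) ξ ∧ ∃ c : ℂ, ξ *ᵥ rz F a j x = c • rz F a j x) ∧
    ∀ a j a' j' x, x ∈ (cu F a j).source → x ∈ (cu F a' j').source →
      ∀ b ∈ Tg P (ra F a (F.p x)),
        fr (cu F a' j') x (J a' j' (cu F a' j' x) (act b (gm F a a' (F.p x)))) =
          fr (cu F a j) x (J a j (cu F a j x) b)

/-- row INV: the relative tangent bundle of `e` along the curves -/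
def INV : Prop := ∀ {n N r e d D k : ℕ} {V : Mf n} {P : Eqs r N} {pt : Cm N → V.X}
  (F : Fam V P pt d D k), Hy V P e pt d F.M → ∀ (Z : Mf (k + 1 + 1)) (q1 q2 : Z.X → F.U.X),
  Cart F.p F.p q1 q2 → ∀ (m : ℕ) (E : VB F.U.X), IsRel F.e m E →
  ∃ φ, IsHom (k + 1 + 1) ((E.pull q1).tw (lin ![pull q1 (Tb F), Dg F q1 q2] ![1, -1]))
    (E.pull q2) φ ∧ ∀ w, Function.Bijective (φ w)

end Vale.Agent.P280Z.Mb
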